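import Mathlib
import Crest.Prelude.Def_BoxFlow

/-!
Common definitions for the proof of S0170 (box flows).

* `Eff1 g` : a smooth function of one real variable all of whose derivatives are bounded by a
  primitive recursive function and approximable at rational points by a primitive recursive function.
* `sep g0 g m` : the separable field `g0 t * g 0 x₀ * g 1 x₁ * g 2 x₂` in direction `m`.
* `Good U s0 s1` : smooth, compactly supported, effective, divergence free, active only in `(s0, s1)`.
* `Carries U s0 s1 K R` : every solution of the equation on `[s0, s1]` starting in `K` ends at `R (start)`.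
* `Realizable K R` : on every rational time interval some good field carries each `K i` by `R i`.
* `elemMap`, `ElemStmt` : the elementary moves (axis translations and shears) and their realizability.
-/

namespace Crest.Agent.BoxFlow

open Crest.AnalysisR.BoxFlow
open scoped ContDiff

/-- three-space -/
abbrev E3 : Type := Fin 3 → ℝ

/-- Effective smooth functions of one variable. -/
structure Eff1 (g : ℝ → ℝ) : Prop where
  smooth : ContDiff ℝ ∞ g
  approx : ∃ A : ℕ × ℚ × ℕ → ℚ, Primrec A ∧ ∀ (k : ℕ) (q : ℚ) (n : ℕ),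
    |iteratedDeriv k g (q : ℝ) - (A (k, q, n) : ℝ)| ≤ 1 / ((n : ℝ) + 1)
  bound : ∃ B : ℕ → ℕ, Primrec B ∧ ∀ (k : ℕ) (x : ℝ), |iteratedDeriv k g x| ≤ (B k : ℝ)

/-- The separable field `g0 t * ∏ d, g d (x d)` pointing in direction `m`. -/
noncomputable def sep (g0 : ℝ → ℝ) (g : Fin 3 → ℝ → ℝ) (m : Fin 3) : Field :=
  fun p => Pi.single m (g0 p.1 * ∏ d : Fin 3, g d (p.2 d))

/-- Good fields on the time interval `(s0, s1)`. -/
structure Good (U : Field) (s0 s1 : ℝ) : Prop where
  smooth : ContDiff ℝ ∞ U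
  compact : HasCompactSupport U
  eff : Effective U
  time : ∀ p : ℝ × E3, p.1 ∉ Set.Ioo s0 s1 → U p = 0
  div : ∀ p : ℝ × E3, spaceDiv U p = 0

/-- Every solution on `[s0, s1]` that starts in `K` ends at `R (start)`. -/
def Carries (U : Field) (s0 s1 : ℝ) (K : Set E3) (R : E3 → E3) : Prop :=
  ∀ y : ℝ → E3, (∀ t ∈ Set.Icc s0 s1, HasDerivWithinAt y (U (t, y t)) (Set.Icc s0 s1) t) →
    y s0 ∈ K → y s1 = R (y s0)

/-- On every rational time interval some good field carries each `K i` by `R i`. -/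
def Realizable {ι : Type} (K : ι → Set E3) (R : ι → E3 → E3) : Prop :=
  ∀ s0 s1 : ℚ, s0 < s1 → ∃ U : Field, Good U s0 s1 ∧ ∀ i, Carries U s0 s1 (K i) (R i)

/-- The elementary motion: `x ↦ x + θ (α x_j + β) e_a` (translation for `α = 0`, shear otherwise). -/
noncomputable def elemMap (a j : Fin 3) (α β : ℚ) (θ : ℝ) (x : E3) : E3 :=
  x + Pi.single a (θ * ((α : ℝ) * x j + (β : ℝ)))

/-- Realizability of the elementary moves: the bodies that move stay inside the box `[lo, hi]`
along the whole motion, the other bodies stay outside the box `[lo - m, hi + m]`. -/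
def ElemStmt : Prop :=
  ∀ (ι : Type) (K : ι → Set E3) (R : ι → E3 → E3) (a j : Fin 3) (α β : ℚ) (lo hi : Fin 3 → ℚ)
    (m : ℚ), a ≠ j → 0 < m → (∀ d, lo d < hi d) →
    (∀ i, (R i = elemMap a j α β 1 ∧ ∀ x ∈ K i, ∀ θ ∈ Set.Icc (0 : ℝ) 1, ∀ d,
            (lo d : ℝ) ≤ elemMap a j α β θ x d ∧ elemMap a j α β θ x d ≤ (hi d : ℝ)) ∨
          (R i = id ∧ ∀ x ∈ K i, ∃ d, x d ≤ (lo d : ℝ) - m ∨ (hi d : ℝ) + m ≤ x d)) →
    Realizable K R

/-- The smooth step from `0` (for `t ≤ s0`) to `1` (for `s1 ≤ t`). -/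
noncomputable def stepFn (s0 s1 : ℚ) (t : ℝ) : ℝ :=
  Real.smoothTransition ((1 / (s1 - s0) : ℚ) * t + (-s0 / (s1 - s0) : ℚ))

/-- The plateau function: `1` near `[lo, hi]`, `0` near the complement of `(lo - m, hi + m)`. -/
noncomputable def plateau (lo hi m : ℚ) (x : ℝ) : ℝ :=
  stepFn (lo - 3 * m / 4) (lo - m / 4) x - stepFn (hi + m / 4) (hi + 3 * m / 4) x

end Crest.Agent.BoxFlow
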