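import Mathlib

/-!
Primitive recursiveness of the arithmetic of `ℚ` with respect to Mathlib's `Primcodable ℚ`
(which comes from `Denumerable ℚ`, the order-compression of the standard encoding).
-/

namespace Crest.Agent.BoxFlow

open Encodable

/-! ### divisibility, gcd, coprimality -/

theorem primrecRel_dvd : PrimrecRel (fun a b : ℕ => a ∣ b) := by
  have : PrimrecRel (fun a b : ℕ => b % a = 0) :=
    Primrec.eq.comp (Primrec.nat_mod.comp Primrec.snd Primrec.fst) (Primrec.const 0)
  exact this.of_eq fun a b => (Nat.dvd_iff_mod_eq_zero ..).symm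

theorem gcd_eq_findGreatest (a b : ℕ) :
    Nat.gcd a b = Nat.findGreatest (fun k => k ∣ a ∧ k ∣ b) (a + b) := by
  symm
  rw [Nat.findGreatest_eq_iff]
  refine ⟨?_, fun _ => ⟨Nat.gcd_dvd_left a b, Nat.gcd_dvd_right a b⟩, ?_⟩
  · rcases Nat.eq_zero_or_pos a with rfl | ha
    · simp
    · exact (Nat.gcd_le_left b ha).trans (Nat.le_add_right a b)
  · intro n hn hle h
    have hd : n ∣ Nat.gcd a b := Nat.dvd_gcd h.1 h.2
    have hpos : 0 < Nat.gcd a b := by
      rcases Nat.eq_zero_or_pos (Nat.gcd a b) with h0 | h0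
      · have ha := Nat.eq_zero_of_gcd_eq_zero_left h0
        have hb := Nat.eq_zero_of_gcd_eq_zero_right h0
        omega
      · exact h0
    exact absurd (Nat.le_of_dvd hpos hd) (by omega)

theorem primrec_gcd : Primrec₂ Nat.gcd := by
  have h : Primrec₂ (fun a b : ℕ => Nat.findGreatest (fun k => k ∣ a ∧ k ∣ b) (a + b)) := by
    refine Primrec.nat_findGreatest (f := fun p : ℕ × ℕ => p.1 + p.2)
      (p := fun (p : ℕ × ℕ) k => k ∣ p.1 ∧ k ∣ p.2)
      (Primrec.nat_add.comp Primrec.fst Primrec.snd) ?_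
    exact PrimrecPred.and
      (primrecRel_dvd.comp Primrec.snd (Primrec.fst.comp Primrec.fst))
      (primrecRel_dvd.comp Primrec.snd (Primrec.snd.comp Primrec.fst))
  exact h.of_eq fun a b => (gcd_eq_findGreatest a b).symm

/-! ### the standard code of a rational and its range -/

/-- the standard code of a rational number -/
def qcode (q : ℚ) : ℕ := Nat.pair (encode q.num) q.den

theorem qcode_eq (q : ℚ) : @encode ℚ Rat.instEncodable q = qcode q := rfl

theorem natAbs_eq_encode (z : ℤ) : z.natAbs = (encode z + 1) / 2 := by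
  cases z with
  | ofNat n =>
    have : encode (Int.ofNat n) = 2 * n := rfl
    rw [this]; simp; omega
  | negSucc n =>
    have : encode (Int.negSucc n) = 2 * n + 1 := rfl
    rw [this]; simp; omega

/-- membership in the range of `qcode`, arithmetically -/
def InR (x : ℕ) : Prop := 0 < x.unpair.2 ∧ Nat.gcd ((x.unpair.1 + 1) / 2) x.unpair.2 = 1

instance : DecidablePred InR := fun x => by unfold InR; infer_instance

theorem inR_qcode (q : ℚ) : InR (qcode q) := by
  unfold InR qcode
  rw [Nat.unpair_pair]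
  refine ⟨q.den_pos, ?_⟩
  simp only
  rw [← natAbs_eq_encode]
  exact q.reduced

theorem exists_of_inR {x : ℕ} (h : InR x) : ∃ q : ℚ, qcode q = x := by
  obtain ⟨h1, h2⟩ := h
  set z : ℤ := Denumerable.ofNat ℤ x.unpair.1 with hz
  have hzc : encode z = x.unpair.1 := Denumerable.encode_ofNat _
  refine ⟨⟨z, x.unpair.2, h1.ne', ?_⟩, ?_⟩
  · rw [natAbs_eq_encode, hzc]; exact h2
  · unfold qcode
    simp only [hzc]
    exact Nat.pair_unpair x

theorem mem_range_iff (x : ℕ) : x ∈ Set.range (@encode ℚ Rat.instEncodable) ↔ InR x := by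
  constructor
  · rintro ⟨q, rfl⟩; exact inR_qcode q
  · intro h
    obtain ⟨q, rfl⟩ := exists_of_inR h
    exact ⟨q, rfl⟩

theorem primrecPred_inR : PrimrecPred InR := by
  unfold InR
  refine PrimrecPred.and ?_ ?_
  · exact Primrec.nat_lt.comp (Primrec.const 0) (Primrec.snd.comp Primrec.unpair)
  · refine Primrec.eq.comp (primrec_gcd.comp ?_ (Primrec.snd.comp Primrec.unpair)) (Primrec.const 1)
    exact Primrec.nat_div.comp (Primrec.succ.comp (Primrec.fst.comp Primrec.unpair))
      (Primrec.const 2)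

/-- number of codes below `x` -/
def cnt (x : ℕ) : ℕ := ((List.range x).filter (fun y => decide (InR y))).length

theorem primrec_cnt : Primrec cnt := by
  unfold cnt
  exact Primrec.list_length.comp ((Primrec.listFilter primrecPred_inR).comp Primrec.list_range)

/-- the code used by `Primcodable ℚ` -/
def penc (q : ℚ) : ℕ := @encode ℚ (Primcodable.ofDenumerable ℚ).toEncodable q

theorem primrec_penc : Primrec penc := Primrec.encode

theorem penc_eq (q : ℚ) : penc q = cnt (qcode q) := by
  have h : penc q = (List.range (qcode q)).countP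
      (fun y => @decide (y ∈ Set.range (@encode ℚ Rat.instEncodable))
        (Encodable.decidableRangeEncode ℚ y)) := rfl
  rw [h, cnt, List.countP_eq_length_filter]
  congr 1
  refine List.filter_congr fun y _ => ?_
  simp only [decide_eq_decide]
  exact mem_range_iff y

theorem penc_ofNat (n : ℕ) : penc (Denumerable.ofNat ℚ n) = n := Denumerable.encode_ofNat n

theorem ofNat_penc (q : ℚ) : Denumerable.ofNat ℚ (penc q) = q := Denumerable.ofNat_encode q

theorem penc_injective : Function.Injective penc := fun a b h => by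
  rw [← ofNat_penc a, ← ofNat_penc b, h]

theorem qcode_injective : Function.Injective qcode := fun _ _ h =>
  (@encode_injective ℚ Rat.instEncodable) h

theorem cnt_mono {x y : ℕ} (h : x ≤ y) : cnt x ≤ cnt y := by
  unfold cnt
  obtain ⟨k, rfl⟩ := Nat.exists_eq_add_of_le h
  rw [List.range_add, List.filter_append, List.length_append]
  exact Nat.le_add_right _ _

theorem cnt_succ_of_inR {x : ℕ} (h : InR x) : cnt (x + 1) = cnt x + 1 := by
  unfold cnt
  rw [List.range_succ, List.filter_append, List.length_append]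
  simp [h]

theorem cnt_lt_of_lt {x y : ℕ} (hx : InR x) (h : x < y) : cnt x < cnt y := by
  have := cnt_mono (show x + 1 ≤ y from h)
  rw [cnt_succ_of_inR hx] at this
  omega

theorem penc_lt_of_qcode_lt {q r : ℚ} (h : qcode q < qcode r) : penc q < penc r := by
  rw [penc_eq, penc_eq]
  exact cnt_lt_of_lt (inR_qcode q) h

/-- the `n`-th code -/
def nthCode (n : ℕ) : ℕ := qcode (Denumerable.ofNat ℚ n)

theorem nthCode_eq_iff (n x : ℕ) : nthCode n = x ↔ InR x ∧ cnt x = n := by
  constructor
  · rintro rfl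
    exact ⟨inR_qcode _, by rw [nthCode, ← penc_eq, penc_ofNat]⟩
  · rintro ⟨h1, h2⟩
    obtain ⟨q, rfl⟩ := exists_of_inR h1
    rw [← penc_eq] at h2
    rw [nthCode, ← h2, ofNat_penc]

theorem nthCode_le (n : ℕ) : nthCode n ≤ Nat.pair (2 * n) 1 := by
  by_contra hcon
  rw [not_le] at hcon
  -- the integers `0, …, n` have codes below
  have hlt : ∀ u : Fin (n + 1), penc ((u : ℕ) : ℚ) < n := by
    intro u
    have h1 : qcode ((u : ℕ) : ℚ) = Nat.pair (2 * u) 1 := by
      unfold qcode
      have : encode (((u : ℕ) : ℚ).num) = 2 * (u : ℕ) := by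
        rw [Rat.num_natCast]; rfl
      rw [this, Rat.den_natCast]
    have h2 : qcode ((u : ℕ) : ℚ) < nthCode n := by
      rw [h1]
      refine lt_of_le_of_lt ?_ hcon
      rcases (Nat.lt_succ_iff.1 u.2).eq_or_lt with h | h
      · rw [h]
      · exact (Nat.pair_lt_pair_left 1 (by omega)).le
    have := penc_lt_of_qcode_lt (r := Denumerable.ofNat ℚ n) h2
    rwa [penc_ofNat] at this
  let f : Fin (n + 1) → Fin n := fun u => ⟨penc ((u : ℕ) : ℚ), hlt u⟩
  obtain ⟨u, v, huv, hf⟩ := Fintype.exists_ne_map_eq_of_card_lt f (by simp)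
  have : penc ((u : ℕ) : ℚ) = penc ((v : ℕ) : ℚ) := congrArg Fin.val hf
  have := penc_injective this
  exact huv (Fin.ext (by exact_mod_cast this))

theorem primrec_nthCode : Primrec nthCode := by
  refine Primrec.of_graph ⟨fun n => Nat.pair (2 * n) 1, ?_, nthCode_le⟩ ?_
  · exact Primrec₂.natPair.comp Primrec.nat_double (Primrec.const 1)
  · have : PrimrecRel (fun n x : ℕ => InR x ∧ cnt x = n) :=
      PrimrecPred.and (primrecPred_inR.comp Primrec.snd)
        (Primrec.eq.comp (primrec_cnt.comp Primrec.snd) Primrec.fst)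
    exact this.of_eq fun n x => (nthCode_eq_iff n x).symm

/-! ### conversion to and from unnormalised fractions -/

/-- positive part of the numerator, negative part of the numerator, denominator -/
def toTriple (q : ℚ) : ℕ × ℕ × ℕ := (q.num.toNat, (-q.num).toNat, q.den)

/-- `toTriple` read off the standard code -/
def tripleOfCode (x : ℕ) : ℕ × ℕ × ℕ :=
  (if x.unpair.1 % 2 = 0 then x.unpair.1 / 2 else 0,
    if x.unpair.1 % 2 = 0 then 0 else (x.unpair.1 + 1) / 2, x.unpair.2)

theorem toTriple_eq (q : ℚ) : toTriple q = tripleOfCode (qcode q) := by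
  unfold toTriple tripleOfCode qcode
  rw [Nat.unpair_pair]
  simp only
  cases q.num with
  | ofNat n =>
    have : encode (Int.ofNat n) = 2 * n := rfl
    rw [this]
    have h1 : 2 * n % 2 = 0 := by omega
    have h2 : 2 * n / 2 = n := by omega
    simp [h2]
  | negSucc n =>
    have : encode (Int.negSucc n) = 2 * n + 1 := rfl
    rw [this]
    have h1 : ¬ (2 * n + 1) % 2 = 0 := by omega
    have h2 : (2 * n + 1 + 1) / 2 = n + 1 := by omega
    simp [h2, Int.neg_negSucc]

theorem primrec_tripleOfCode : Primrec tripleOfCode := by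
  unfold tripleOfCode
  have hu : Primrec (fun x : ℕ => x.unpair.1) := Primrec.fst.comp Primrec.unpair
  have hv : Primrec (fun x : ℕ => x.unpair.2) := Primrec.snd.comp Primrec.unpair
  have hc : PrimrecPred (fun x : ℕ => x.unpair.1 % 2 = 0) :=
    Primrec.eq.comp (Primrec.nat_mod.comp hu (Primrec.const 2)) (Primrec.const 0)
  refine Primrec.pair ?_ (Primrec.pair ?_ hv)
  · exact Primrec.ite hc (Primrec.nat_div.comp hu (Primrec.const 2)) (Primrec.const 0)
  · exact Primrec.ite hc (Primrec.const 0)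
      (Primrec.nat_div.comp (Primrec.succ.comp hu) (Primrec.const 2))

theorem nthCode_penc (q : ℚ) : nthCode (penc q) = qcode q := by
  rw [nthCode, ofNat_penc]

theorem primrec_toTriple : Primrec toTriple :=
  (primrec_tripleOfCode.comp (primrec_nthCode.comp primrec_penc)).of_eq fun q => by
    rw [nthCode_penc, toTriple_eq]

/-- the fraction `(p - m) / (d + 1)` -/
def ofTriple (t : ℕ × ℕ × ℕ) : ℚ := ((t.1 : ℚ) - (t.2.1 : ℚ)) / ((t.2.2 : ℚ) + 1)

theorem toTriple_den_pos (q : ℚ) : 0 < (toTriple q).2.2 := q.den_pos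

theorem toTriple_val (q : ℚ) :
    q = (((toTriple q).1 : ℚ) - ((toTriple q).2.1 : ℚ)) / ((toTriple q).2.2 : ℚ) := by
  unfold toTriple
  simp only
  have h : ((q.num.toNat : ℚ) - ((-q.num).toNat : ℚ)) = (q.num : ℚ) := by
    rcases le_total 0 q.num with h | h
    · have h1 : ((q.num.toNat : ℤ)) = q.num := Int.toNat_of_nonneg h
      have h2 : (-q.num).toNat = 0 := Int.toNat_eq_zero.2 (by omega)
      rw [h2]
      have : ((q.num.toNat : ℤ) : ℚ) = (q.num : ℚ) := by rw [h1]
      rw [Int.cast_natCast] at this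
      rw [this]; simp
    · have h1 : (((-q.num).toNat : ℤ)) = -q.num := Int.toNat_of_nonneg (by omega)
      have h2 : (q.num).toNat = 0 := Int.toNat_eq_zero.2 h
      rw [h2]
      have : (((-q.num).toNat : ℤ) : ℚ) = ((-q.num : ℤ) : ℚ) := by rw [h1]
      have h3 : (((-q.num).toNat : ℕ) : ℚ) = -(q.num : ℚ) := by
        rw [Int.cast_natCast, Int.cast_neg] at this
        exact this
      rw [h3]; simp
  rw [h]
  exact (Rat.num_div_den q).symm

theorem eq_ofTriple_iff (q : ℚ) (t : ℕ × ℕ × ℕ) :
    q = ofTriple t ↔ (toTriple q).1 * (t.2.2 + 1) + t.2.1 * (toTriple q).2.2 =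
      t.1 * (toTriple q).2.2 + (toTriple q).2.1 * (t.2.2 + 1) := by
  have he : ((toTriple q).2.2 : ℚ) ≠ 0 := by
    have := toTriple_den_pos q
    exact_mod_cast this.ne'
  have hd : ((t.2.2 : ℚ) + 1) ≠ 0 := by positivity
  conv_lhs => rw [toTriple_val q]
  unfold ofTriple
  rw [div_eq_div_iff he hd]
  constructor
  · intro h
    have : (((toTriple q).1 * (t.2.2 + 1) + t.2.1 * (toTriple q).2.2 : ℕ) : ℚ) =
        ((t.1 * (toTriple q).2.2 + (toTriple q).2.1 * (t.2.2 + 1) : ℕ) : ℚ) := by
      push_cast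
      linarith
    exact_mod_cast this
  · intro h
    have : (((toTriple q).1 * (t.2.2 + 1) + t.2.1 * (toTriple q).2.2 : ℕ) : ℚ) =
        ((t.1 * (toTriple q).2.2 + (toTriple q).2.1 * (t.2.2 + 1) : ℕ) : ℚ) := by
      rw [h]
    push_cast at this
    linarith

theorem cnt_le (x : ℕ) : cnt x ≤ x := by
  unfold cnt
  exact (List.length_filter_le _ _).trans (by simp)

theorem ofTriple_bound (t : ℕ × ℕ × ℕ) :
    penc (ofTriple t) ≤ (2 * (t.1 + t.2.1) + t.2.2 + 2) ^ 2 := by
  set q := ofTriple t with hq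
  have hq' : q = Rat.divInt ((t.1 : ℤ) - (t.2.1 : ℤ)) ((t.2.2 : ℤ) + 1) := by
    rw [hq, ofTriple, Rat.divInt_eq_div]
    push_cast
    rfl
  have hden : q.den ≤ t.2.2 + 1 := by
    have h := Rat.den_dvd ((t.1 : ℤ) - (t.2.1 : ℤ)) ((t.2.2 : ℤ) + 1)
    rw [← hq'] at h
    have h' : (q.den : ℤ) ≤ (t.2.2 : ℤ) + 1 := Int.le_of_dvd (by positivity) h
    exact_mod_cast h'
  have hnum : q.num.natAbs ≤ t.1 + t.2.1 := by
    have h := Rat.num_dvd ((t.1 : ℤ) - (t.2.1 : ℤ)) (b := (t.2.2 : ℤ) + 1) (by positivity)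
    rw [← hq'] at h
    rcases eq_or_ne ((t.1 : ℤ) - (t.2.1 : ℤ)) 0 with h0 | h0
    · have : q = 0 := by rw [hq', h0]; simp
      rw [this]; simp
    · have := Int.natAbs_le_of_dvd_ne_zero h h0
      omega
  have henc : encode q.num ≤ 2 * q.num.natAbs := by
    cases q.num with
    | ofNat n => exact le_of_eq rfl
    | negSucc n =>
      have : encode (Int.negSucc n) = 2 * n + 1 := rfl
      rw [this]; simp
  calc penc q = cnt (qcode q) := penc_eq q
    _ ≤ qcode q := cnt_le _
    _ ≤ (max (encode q.num) q.den + 1) ^ 2 := (Nat.pair_lt_max_add_one_sq _ _).le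
    _ ≤ (2 * (t.1 + t.2.1) + t.2.2 + 2) ^ 2 := by
        refine Nat.pow_le_pow_left ?_ 2
        have : max (encode q.num) q.den ≤ 2 * (t.1 + t.2.1) + t.2.2 + 1 :=
          max_le (by omega) (by omega)
        omega

theorem primrec_ofTriple : Primrec ofTriple := by
  have key : Primrec (fun t => penc (ofTriple t)) := by
    refine Primrec.of_graph ⟨fun t => (2 * (t.1 + t.2.1) + t.2.2 + 2) ^ 2, ?_, ofTriple_bound⟩ ?_
    · have h1 : Primrec (fun t : ℕ × ℕ × ℕ => 2 * (t.1 + t.2.1) + t.2.2 + 2) := by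
        refine Primrec.nat_add.comp (Primrec.nat_add.comp (Primrec.nat_double.comp
          (Primrec.nat_add.comp Primrec.fst (Primrec.fst.comp Primrec.snd)))
          (Primrec.snd.comp Primrec.snd)) (Primrec.const 2)
      exact (Primrec.nat_mul.comp h1 h1).of_eq fun t => (sq _).symm
    · -- the graph
      have hT : Primrec (fun n : ℕ => toTriple (Denumerable.ofNat ℚ n)) :=
        primrec_toTriple.comp (Primrec.ofNat ℚ)
      have hT' : Primrec (fun p : (ℕ × ℕ × ℕ) × ℕ => toTriple (Denumerable.ofNat ℚ p.2)) :=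
        hT.comp Primrec.snd
      have ht : Primrec (fun p : (ℕ × ℕ × ℕ) × ℕ => p.1) := Primrec.fst
      have hd1 : Primrec (fun p : (ℕ × ℕ × ℕ) × ℕ => p.1.2.2 + 1) :=
        Primrec.succ.comp (Primrec.snd.comp (Primrec.snd.comp ht))
      have : PrimrecRel (fun (t : ℕ × ℕ × ℕ) (n : ℕ) =>
          (toTriple (Denumerable.ofNat ℚ n)).1 * (t.2.2 + 1) +
            t.2.1 * (toTriple (Denumerable.ofNat ℚ n)).2.2 =
          t.1 * (toTriple (Denumerable.ofNat ℚ n)).2.2 +
            (toTriple (Denumerable.ofNat ℚ n)).2.1 * (t.2.2 + 1)) := by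
        refine Primrec.eq.comp ?_ ?_
        · exact Primrec.nat_add.comp (Primrec.nat_mul.comp (Primrec.fst.comp hT') hd1)
            (Primrec.nat_mul.comp (Primrec.fst.comp (Primrec.snd.comp ht))
              (Primrec.snd.comp (Primrec.snd.comp hT')))
        · exact Primrec.nat_add.comp (Primrec.nat_mul.comp (Primrec.fst.comp ht)
            (Primrec.snd.comp (Primrec.snd.comp hT')))
            (Primrec.nat_mul.comp (Primrec.fst.comp (Primrec.snd.comp hT')) hd1)
      refine this.of_eq fun t n => ?_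
      rw [← eq_ofTriple_iff]
      constructor
      · intro h; rw [← h, penc_ofNat]
      · intro h; rw [← h, ofNat_penc]
  exact Primrec.encode_iff.1 key

/-! ### arithmetic of `ℚ` -/

theorem ofTriple_mk (p m d : ℕ) (hd : 0 < d) : ofTriple (p, m, d - 1) = ((p : ℚ) - m) / d := by
  unfold ofTriple
  simp only
  have : ((d - 1 : ℕ) : ℚ) + 1 = d := by
    have : ((d - 1 + 1 : ℕ) : ℚ) = d := by rw [Nat.sub_add_cancel hd]
    exact_mod_cast this
  rw [this]

section
variable {α : Type*} [Primcodable α]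

theorem primrec_qa {f : α → ℚ} (hf : Primrec f) : Primrec fun x => (toTriple (f x)).1 :=
  Primrec.fst.comp (primrec_toTriple.comp hf)

theorem primrec_qb {f : α → ℚ} (hf : Primrec f) : Primrec fun x => (toTriple (f x)).2.1 :=
  Primrec.fst.comp (Primrec.snd.comp (primrec_toTriple.comp hf))

theorem primrec_qe {f : α → ℚ} (hf : Primrec f) : Primrec fun x => (toTriple (f x)).2.2 :=
  Primrec.snd.comp (Primrec.snd.comp (primrec_toTriple.comp hf))

theorem primrec_mkTriple {p m d : α → ℕ} (hp : Primrec p) (hm : Primrec m) (hd : Primrec d) :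
    Primrec fun x => ofTriple (p x, m x, d x - 1) :=
  primrec_ofTriple.comp (hp.pair (hm.pair (Primrec.nat_sub.comp hd (Primrec.const 1))))

end

theorem qe_ne_zero (q : ℚ) : ((toTriple q).2.2 : ℚ) ≠ 0 := by
  have := toTriple_den_pos q
  exact_mod_cast this.ne'

theorem primrec_qadd : Primrec₂ ((· + ·) : ℚ → ℚ → ℚ) := by
  have h1 : Primrec (fun p : ℚ × ℚ => p.1) := Primrec.fst
  have h2 : Primrec (fun p : ℚ × ℚ => p.2) := Primrec.snd
  have := primrec_mkTriple
    (Primrec.nat_add.comp (Primrec.nat_mul.comp (primrec_qa h1) (primrec_qe h2))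
      (Primrec.nat_mul.comp (primrec_qa h2) (primrec_qe h1)))
    (Primrec.nat_add.comp (Primrec.nat_mul.comp (primrec_qb h1) (primrec_qe h2))
      (Primrec.nat_mul.comp (primrec_qb h2) (primrec_qe h1)))
    (Primrec.nat_mul.comp (primrec_qe h1) (primrec_qe h2))
  refine this.of_eq fun p => ?_
  rw [ofTriple_mk _ _ _ (Nat.mul_pos (toTriple_den_pos _) (toTriple_den_pos _))]
  show _ = p.1 + p.2
  conv_rhs => rw [toTriple_val p.1, toTriple_val p.2]
  rw [div_add_div _ _ (qe_ne_zero _) (qe_ne_zero _)]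
  push_cast
  ring

theorem primrec_qneg : Primrec (Neg.neg : ℚ → ℚ) := by
  have h1 : Primrec (fun p : ℚ => p) := Primrec.id
  have := primrec_mkTriple (primrec_qb h1) (primrec_qa h1) (primrec_qe h1)
  refine this.of_eq fun p => ?_
  rw [ofTriple_mk _ _ _ (toTriple_den_pos _)]
  conv_rhs => rw [toTriple_val p]
  ring

theorem primrec_qsub : Primrec₂ ((· - ·) : ℚ → ℚ → ℚ) :=
  (primrec_qadd.comp Primrec.fst (primrec_qneg.comp Primrec.snd)).of_eq fun _ =>
    (sub_eq_add_neg _ _).symm

theorem primrec_qmul : Primrec₂ ((· * ·) : ℚ → ℚ → ℚ) := by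
  have h1 : Primrec (fun p : ℚ × ℚ => p.1) := Primrec.fst
  have h2 : Primrec (fun p : ℚ × ℚ => p.2) := Primrec.snd
  have := primrec_mkTriple
    (Primrec.nat_add.comp (Primrec.nat_mul.comp (primrec_qa h1) (primrec_qa h2))
      (Primrec.nat_mul.comp (primrec_qb h1) (primrec_qb h2)))
    (Primrec.nat_add.comp (Primrec.nat_mul.comp (primrec_qa h1) (primrec_qb h2))
      (Primrec.nat_mul.comp (primrec_qb h1) (primrec_qa h2)))
    (Primrec.nat_mul.comp (primrec_qe h1) (primrec_qe h2))
  refine this.of_eq fun p => ?_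
  rw [ofTriple_mk _ _ _ (Nat.mul_pos (toTriple_den_pos _) (toTriple_den_pos _))]
  show _ = p.1 * p.2
  conv_rhs => rw [toTriple_val p.1, toTriple_val p.2]
  rw [div_mul_div_comm]
  push_cast
  ring

theorem toTriple_zero_or (q : ℚ) : (toTriple q).1 = 0 ∨ (toTriple q).2.1 = 0 := by
  unfold toTriple
  simp only
  omega

theorem primrec_qinv : Primrec (Inv.inv : ℚ → ℚ) := by
  have h1 : Primrec (fun p : ℚ => p) := Primrec.id
  have hz : Primrec (fun _ : ℚ => (0 : ℕ)) := Primrec.const 0
  have A := primrec_mkTriple (primrec_qe h1) hz (primrec_qa h1)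
  have B := primrec_mkTriple hz (primrec_qe h1) (primrec_qb h1)
  have ca : PrimrecPred (fun p : ℚ => 0 < (toTriple p).1) := Primrec.nat_lt.comp hz (primrec_qa h1)
  have cb : PrimrecPred (fun p : ℚ => 0 < (toTriple p).2.1) :=
    Primrec.nat_lt.comp hz (primrec_qb h1)
  refine (Primrec.ite ca A (Primrec.ite cb B (Primrec.const 0))).of_eq fun p => ?_
  by_cases ha : 0 < (toTriple p).1
  · rw [if_pos ha, ofTriple_mk _ _ _ ha]
    have hb : (toTriple p).2.1 = 0 := (toTriple_zero_or p).resolve_left ha.ne'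
    conv_rhs => rw [toTriple_val p, hb]
    simp
  · rw [if_neg ha]
    have ha0 : (toTriple p).1 = 0 := by omega
    by_cases hb : 0 < (toTriple p).2.1
    · rw [if_pos hb, ofTriple_mk _ _ _ hb]
      conv_rhs => rw [toTriple_val p, ha0]
      simp only [Nat.cast_zero, zero_sub, inv_div]
      rw [neg_div, div_neg]
    · rw [if_neg hb]
      have hb0 : (toTriple p).2.1 = 0 := by omega
      conv_rhs => rw [toTriple_val p, ha0, hb0]
      simp

theorem primrec_qdiv : Primrec₂ ((· / ·) : ℚ → ℚ → ℚ) :=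
  (primrec_qmul.comp Primrec.fst (primrec_qinv.comp Primrec.snd)).of_eq fun _ =>
    (div_eq_mul_inv _ _).symm

theorem primrec_natCast : Primrec (Nat.cast : ℕ → ℚ) := by
  have : Primrec (fun n : ℕ => ofTriple (n, 0, 0)) :=
    primrec_ofTriple.comp (Primrec.id.pair (Primrec.const (0, 0)))
  refine this.of_eq fun n => ?_
  simp [ofTriple]

theorem primrecRel_qle : PrimrecRel ((· ≤ ·) : ℚ → ℚ → Prop) := by
  have h1 : Primrec (fun p : ℚ × ℚ => p.1) := Primrec.fst
  have h2 : Primrec (fun p : ℚ × ℚ => p.2) := Primrec.snd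
  have : PrimrecPred (fun p : ℚ × ℚ =>
      (toTriple p.1).1 * (toTriple p.2).2.2 + (toTriple p.2).2.1 * (toTriple p.1).2.2 ≤
      (toTriple p.2).1 * (toTriple p.1).2.2 + (toTriple p.1).2.1 * (toTriple p.2).2.2) :=
    Primrec.nat_le.comp
      (Primrec.nat_add.comp (Primrec.nat_mul.comp (primrec_qa h1) (primrec_qe h2))
        (Primrec.nat_mul.comp (primrec_qb h2) (primrec_qe h1)))
      (Primrec.nat_add.comp (Primrec.nat_mul.comp (primrec_qa h2) (primrec_qe h1))
        (Primrec.nat_mul.comp (primrec_qb h1) (primrec_qe h2)))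
  refine this.of_eq fun p => ?_
  have e1 : (0 : ℚ) < ((toTriple p.1).2.2 : ℚ) := by exact_mod_cast toTriple_den_pos p.1
  have e2 : (0 : ℚ) < ((toTriple p.2).2.2 : ℚ) := by exact_mod_cast toTriple_den_pos p.2
  show _ ↔ p.1 ≤ p.2
  conv_rhs => rw [toTriple_val p.1, toTriple_val p.2]
  rw [div_le_div_iff₀ e1 e2]
  constructor
  · intro h
    have : (((toTriple p.1).1 * (toTriple p.2).2.2 + (toTriple p.2).2.1 * (toTriple p.1).2.2 : ℕ) : ℚ)
      ≤ (((toTriple p.2).1 * (toTriple p.1).2.2 + (toTriple p.1).2.1 * (toTriple p.2).2.2 : ℕ) : ℚ) := by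
      exact_mod_cast h
    push_cast at this
    linarith
  · intro h
    have : (((toTriple p.1).1 * (toTriple p.2).2.2 + (toTriple p.2).2.1 * (toTriple p.1).2.2 : ℕ) : ℚ)
      ≤ (((toTriple p.2).1 * (toTriple p.1).2.2 + (toTriple p.1).2.1 * (toTriple p.2).2.2 : ℕ) : ℚ) := by
      push_cast
      linarith
    exact_mod_cast this

theorem primrecRel_qlt : PrimrecRel ((· < ·) : ℚ → ℚ → Prop) :=
  (primrecRel_qle.swap.not).of_eq fun a b => by simp [Function.swap]

theorem primrec_qpow : Primrec₂ (fun (q : ℚ) (n : ℕ) => q ^ n) := by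
  have : Primrec (fun p : ℚ × ℕ => Nat.rec (motive := fun _ => ℚ) 1 (fun _ IH => IH * p.1) p.2) :=
    Primrec.nat_rec' Primrec.snd (Primrec.const 1)
      (primrec_qmul.comp (Primrec.snd.comp Primrec.snd) (Primrec.fst.comp Primrec.fst)).to₂
  refine this.of_eq fun p => ?_
  show _ = p.1 ^ p.2
  induction p.2 with
  | zero => simp
  | succ n ih => simp only [pow_succ]; rw [← ih]

theorem primrec_numNatAbs : Primrec (fun q : ℚ => q.num.natAbs) := by
  have h1 : Primrec (fun p : ℚ => p) := Primrec.id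
  refine (Primrec.nat_add.comp (primrec_qa h1) (primrec_qb h1)).of_eq fun q => ?_
  unfold toTriple
  simp only
  omega

theorem primrec_factorial : Primrec Nat.factorial := by
  have : Primrec (fun n : ℕ => Nat.rec (motive := fun _ => ℕ) 1 (fun k IH => (k + 1) * IH) n) :=
    Primrec.nat_rec' Primrec.id (Primrec.const 1)
      (Primrec.nat_mul.comp (Primrec.succ.comp (Primrec.fst.comp Primrec.snd))
        (Primrec.snd.comp Primrec.snd)).to₂
  refine this.of_eq fun n => ?_
  induction n with
  | zero => rfl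
  | succ n ih => simp only [Nat.factorial_succ]; rw [← ih]

theorem primrec_npow : Primrec₂ (fun (a n : ℕ) => a ^ n) :=
  Primrec₂.unpaired'.1 Nat.Primrec.pow

theorem primrec_choose : Primrec₂ Nat.choose := by
  have hk : Primrec (fun p : ℕ × ℕ => p.1) := Primrec.fst
  have hi : Primrec (fun p : ℕ × ℕ => p.2) := Primrec.snd
  have h : Primrec (fun p : ℕ × ℕ => if p.2 ≤ p.1 then
      p.1.factorial / (p.2.factorial * (p.1 - p.2).factorial) else 0) :=
    Primrec.ite (Primrec.nat_le.comp hi hk)
      (Primrec.nat_div.comp (primrec_factorial.comp hk)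
        (Primrec.nat_mul.comp (primrec_factorial.comp hi)
          (primrec_factorial.comp (Primrec.nat_sub.comp hk hi))))
      (Primrec.const 0)
  refine h.of_eq fun p => ?_
  by_cases hp : p.2 ≤ p.1
  · rw [if_pos hp, Nat.choose_eq_factorial_div_factorial hp]
  · rw [if_neg hp, Nat.choose_eq_zero_of_lt (by omega)]

/-- finite sums of rationals -/
theorem primrec_qsum {α : Type*} [Primcodable α] {f : α → ℕ → ℚ} {n : α → ℕ}
    (hf : Primrec₂ f) (hn : Primrec n) :
    Primrec fun a => ∑ i ∈ Finset.range (n a), f a i := by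
  have : Primrec (fun a : α => Nat.rec (motive := fun _ => ℚ) 0 (fun k IH => IH + f a k) (n a)) :=
    Primrec.nat_rec' hn (Primrec.const 0)
      (primrec_qadd.comp (Primrec.snd.comp Primrec.snd)
        (hf.comp Primrec.fst (Primrec.fst.comp Primrec.snd))).to₂
  refine this.of_eq fun a => ?_
  induction n a with
  | zero => simp
  | succ n ih => rw [Finset.sum_range_succ, ← ih]

/-! ### composition forms -/

section comp
variable {α : Type*} [Primcodable α] {f g : α → ℚ} {n : α → ℕ}

theorem pr_add (hf : Primrec f) (hg : Primrec g) : Primrec fun a => f a + g a :=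
  primrec_qadd.comp hf hg

theorem pr_sub (hf : Primrec f) (hg : Primrec g) : Primrec fun a => f a - g a :=
  primrec_qsub.comp hf hg

theorem pr_mul (hf : Primrec f) (hg : Primrec g) : Primrec fun a => f a * g a :=
  primrec_qmul.comp hf hg

theorem pr_div (hf : Primrec f) (hg : Primrec g) : Primrec fun a => f a / g a :=
  primrec_qdiv.comp hf hg

theorem pr_neg (hf : Primrec f) : Primrec fun a => -f a := primrec_qneg.comp hf

theorem pr_inv (hf : Primrec f) : Primrec fun a => (f a)⁻¹ := primrec_qinv.comp hf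

theorem pr_pow (hf : Primrec f) (hn : Primrec n) : Primrec fun a => f a ^ n a :=
  primrec_qpow.comp hf hn

theorem pr_cast (hn : Primrec n) : Primrec fun a => (n a : ℚ) := primrec_natCast.comp hn

theorem pr_le (hf : Primrec f) (hg : Primrec g) : PrimrecPred fun a => f a ≤ g a :=
  primrecRel_qle.comp hf hg

theorem pr_lt (hf : Primrec f) (hg : Primrec g) : PrimrecPred fun a => f a < g a :=
  primrecRel_qlt.comp hf hg

theorem pr_abs (hf : Primrec f) : Primrec fun a => |f a| := by
  refine (Primrec.ite (pr_le (Primrec.const 0) hf) hf (pr_neg hf)).of_eq fun a => ?_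
  by_cases h : 0 ≤ f a
  · rw [if_pos h, abs_of_nonneg h]
  · rw [if_neg h, abs_of_neg (not_le.1 h)]

theorem pr_app {k : ℕ} {v : α → Fin k → ℚ} (hv : Primrec v) (j : Fin k) :
    Primrec fun a => v a j :=
  Primrec.fin_app.comp hv (Primrec.const j)

end comp

end Crest.Agent.BoxFlow
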