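import Mathlib
import Crest.Prelude.Def_BoxFlow
import Crest.Agent.Lib_BoxFlow.Defs
import Crest.Agent.Lib_BoxFlow.QPrim

/-!
Package B5 for S0170: calculus and effectivity of separable fields, sums of fields, `Good.add`.
-/

namespace Crest.Agent.BoxFlow

open Crest.AnalysisR.BoxFlow
open scoped ContDiff

/-! ### directions -/

theorem direction_zero : direction 0 = ((1 : ℝ), (0 : Fin 3 → ℝ)) := by
  simp [direction]

theorem direction_succ (e : Fin 3) : direction e.succ = ((0 : ℝ), (Pi.single e 1 : Fin 3 → ℝ)) := by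
  simp [direction, Fin.succ_ne_zero]

/-! ### smoothness of mixed derivatives, additivity -/

theorem contDiff_mixedDeriv {U : Field} (hU : ContDiff ℝ ∞ U) (ds : List (Fin 4)) :
    ContDiff ℝ ∞ (mixedDeriv ds U) := by
  induction ds with
  | nil => exact hU
  | cons d ds ih =>
    show ContDiff ℝ ∞ (fun p => fderiv ℝ (mixedDeriv ds U) p (direction d))
    exact (ih.fderiv_right (m := ∞) (by simp)).clm_apply contDiff_const

theorem mixedDeriv_add {U V : Field} (hU : ContDiff ℝ ∞ U) (hV : ContDiff ℝ ∞ V)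
    (ds : List (Fin 4)) : mixedDeriv ds (U + V) = mixedDeriv ds U + mixedDeriv ds V := by
  induction ds with
  | nil => rfl
  | cons d ds ih =>
    funext p
    show fderiv ℝ (mixedDeriv ds (U + V)) p (direction d)
      = fderiv ℝ (mixedDeriv ds U) p (direction d) + fderiv ℝ (mixedDeriv ds V) p (direction d)
    rw [ih, fderiv_add]
    · rfl
    · exact ((contDiff_mixedDeriv hU ds).differentiable (by simp)) p
    · exact ((contDiff_mixedDeriv hV ds).differentiable (by simp)) p

theorem mixedDeriv_zero (ds : List (Fin 4)) : mixedDeriv ds (0 : Field) = 0 := by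
  induction ds with
  | nil => rfl
  | cons d ds ih =>
    funext p
    show fderiv ℝ (mixedDeriv ds (0 : Field)) p (direction d) = 0
    rw [ih]
    simp

theorem spaceDiv_add {U V : Field} (hU : ContDiff ℝ ∞ U) (hV : ContDiff ℝ ∞ V)
    (p : ℝ × E3) : spaceDiv (U + V) p = spaceDiv U p + spaceDiv V p := by
  unfold spaceDiv
  rw [fderiv_add ((hU.differentiable (by simp)) p) ((hV.differentiable (by simp)) p)]
  simp [Finset.sum_add_distrib]

theorem spaceDiv_zero (p : ℝ × E3) : spaceDiv (0 : Field) p = 0 := by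
  unfold spaceDiv
  simp

/-! ### separable fields -/

theorem sep_apply (g0 : ℝ → ℝ) (g : Fin 3 → ℝ → ℝ) (m : Fin 3) (p : ℝ × E3) :
    sep g0 g m p = Pi.single m (g0 p.1 * ∏ d : Fin 3, g d (p.2 d)) := rfl

theorem sep_apply_same (g0 : ℝ → ℝ) (g : Fin 3 → ℝ → ℝ) (m : Fin 3) (p : ℝ × E3) :
    sep g0 g m p m = g0 p.1 * ∏ d : Fin 3, g d (p.2 d) := by
  simp [sep]

theorem sep_apply_ne (g0 : ℝ → ℝ) (g : Fin 3 → ℝ → ℝ) {m j : Fin 3} (h : j ≠ m) (p : ℝ × E3) :
    sep g0 g m p j = 0 := by
  simp [sep, h]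

theorem sep_eq_zero_of_time {g0 : ℝ → ℝ} (g : Fin 3 → ℝ → ℝ) (m : Fin 3) {p : ℝ × E3}
    (h : g0 p.1 = 0) : sep g0 g m p = 0 := by
  simp [sep, h]

theorem sep_eq_zero_of_space (g0 : ℝ → ℝ) {g : Fin 3 → ℝ → ℝ} (m : Fin 3) {p : ℝ × E3}
    (d : Fin 3) (h : g d (p.2 d) = 0) : sep g0 g m p = 0 := by
  have : ∏ d : Fin 3, g d (p.2 d) = 0 := Finset.prod_eq_zero (Finset.mem_univ d) h
  simp [sep, this]

theorem contDiff_sep {g0 : ℝ → ℝ} {g : Fin 3 → ℝ → ℝ} (m : Fin 3) (h0 : ContDiff ℝ ∞ g0)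
    (h : ∀ d, ContDiff ℝ ∞ (g d)) : ContDiff ℝ ∞ (sep g0 g m) := by
  unfold sep
  rw [contDiff_pi]
  intro i
  by_cases hi : i = m
  · subst hi
    simp only [Pi.single_eq_same]
    refine (h0.comp contDiff_fst).mul (contDiff_prod fun d _ => (h d).comp ?_)
    exact (contDiff_apply ℝ ℝ d).comp contDiff_snd
  · simp only [Pi.single_eq_of_ne hi]
    exact contDiff_const

theorem hasCompactSupport_sep {g0 : ℝ → ℝ} {g : Fin 3 → ℝ → ℝ} (m : Fin 3)
    (h0 : HasCompactSupport g0) (h : ∀ d, HasCompactSupport (g d)) :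
    HasCompactSupport (sep g0 g m) := by
  have hK : IsCompact ((tsupport g0) ×ˢ (Set.univ.pi fun d => tsupport (g d))) :=
    IsCompact.prod h0 (isCompact_univ_pi fun d => h d)
  refine HasCompactSupport.intro hK ?_
  intro p hp
  rw [Set.mem_prod, not_and_or] at hp
  rcases hp with hp | hp
  · exact sep_eq_zero_of_time g m (image_eq_zero_of_notMem_tsupport hp)
  · rw [Set.mem_univ_pi, not_forall] at hp
    obtain ⟨d, hd⟩ := hp
    exact sep_eq_zero_of_space g0 m d (image_eq_zero_of_notMem_tsupport hd)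

theorem hasCompactSupport_of_abs {g : ℝ → ℝ} {X : ℝ} (h : ∀ x, X ≤ |x| → g x = 0) :
    HasCompactSupport g := by
  refine HasCompactSupport.intro (isCompact_Icc (a := -X) (b := X)) ?_
  intro x hx
  apply h
  by_contra hlt
  rw [not_le] at hlt
  exact hx ⟨(abs_lt.1 hlt).1.le, (abs_lt.1 hlt).2.le⟩

/-- differentiate the time factor if the direction is the time direction -/
noncomputable def dT (d : Fin 4) (g0 : ℝ → ℝ) : ℝ → ℝ := if d = 0 then deriv g0 else g0

/-- differentiate the space factor singled out by the direction -/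
noncomputable def dX (d : Fin 4) (g : Fin 3 → ℝ → ℝ) : Fin 3 → ℝ → ℝ :=
  fun e => if d = e.succ then deriv (g e) else g e

theorem fderiv_sep_direction {g0 : ℝ → ℝ} {g : Fin 3 → ℝ → ℝ} (m : Fin 3)
    (h0 : ContDiff ℝ ∞ g0) (h : ∀ d, ContDiff ℝ ∞ (g d)) (d : Fin 4) (p : ℝ × E3) :
    fderiv ℝ (sep g0 g m) p (direction d) = sep (dT d g0) (dX d g) m p := by
  have hdiff : DifferentiableAt ℝ (sep g0 g m) p :=
    ((contDiff_sep m h0 h).differentiable (by simp)) p
  rw [← hdiff.lineDeriv_eq_fderiv]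
  unfold lineDeriv
  apply HasDerivAt.deriv
  have hsingle : ∀ (φ : ℝ → ℝ) (c : ℝ), HasDerivAt φ c 0 →
      HasDerivAt (fun t => (Pi.single m (φ t) : Fin 3 → ℝ)) (Pi.single m c) 0 := by
    intro φ c hφ
    rw [hasDerivAt_pi]
    intro i
    by_cases hi : i = m
    · subst hi; simpa using hφ
    · simpa [Pi.single_eq_of_ne hi] using hasDerivAt_const (0 : ℝ) (0 : ℝ)
  rcases Fin.eq_zero_or_eq_succ d with rfl | ⟨e, rfl⟩
  · -- time direction
    rw [direction_zero]
    have hX : dX 0 g = g := by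
      funext e
      simp [dX, (Fin.succ_ne_zero e).symm]
    rw [hX]
    simp only [sep, dT, if_true]
    apply hsingle
    have h1 : HasDerivAt (fun t : ℝ => g0 (p.1 + t)) (deriv g0 p.1) 0 := by
      have := ((h0.differentiable (by simp)) (p.1 + 0)).hasDerivAt.comp_const_add p.1 0
      simpa using this
    simpa using h1.mul_const (∏ d : Fin 3, g d (p.2 d))
  · rw [direction_succ]
    have hT : dT e.succ g0 = g0 := by simp [dT, Fin.succ_ne_zero]
    rw [hT]
    simp only [sep]
    apply hsingle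
    have hsplit : ∀ (G : Fin 3 → ℝ), ∏ d : Fin 3, G d = G e * ∏ d ∈ Finset.univ.erase e, G d :=
      fun G => (Finset.mul_prod_erase Finset.univ G (Finset.mem_univ e)).symm
    have hfun : (fun t : ℝ => g0 (p + t • ((0 : ℝ), (Pi.single e 1 : Fin 3 → ℝ))).1 *
          ∏ d : Fin 3, g d ((p + t • ((0 : ℝ), (Pi.single e 1 : Fin 3 → ℝ))).2 d))
        = fun t : ℝ => g0 p.1 * (g e (p.2 e + t) * ∏ d ∈ Finset.univ.erase e, g d (p.2 d)) := by
      funext t
      rw [hsplit]
      congr 1
      · simp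
      · congr 1
        · simp
        · apply Finset.prod_congr rfl
          intro d hd
          have : d ≠ e := Finset.ne_of_mem_erase hd
          simp [Pi.single_eq_of_ne this]
    rw [hfun, hsplit]
    have h1 : HasDerivAt (fun t : ℝ => g e (p.2 e + t)) (deriv (g e) (p.2 e)) 0 := by
      have := (((h e).differentiable (by simp)) (p.2 e + 0)).hasDerivAt.comp_const_add (p.2 e) 0
      simpa using this
    have h2 := (h1.mul_const (∏ d ∈ Finset.univ.erase e, g d (p.2 d))).const_mul (g0 p.1)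
    have hprod : ∏ d ∈ Finset.univ.erase e, dX e.succ g d (p.2 d)
        = ∏ d ∈ Finset.univ.erase e, g d (p.2 d) := by
      apply Finset.prod_congr rfl
      intro d hd
      have : d ≠ e := Finset.ne_of_mem_erase hd
      have h' : e.succ ≠ d.succ := fun hh => this (Fin.succ_injective _ hh).symm
      simp [dX, h']
    rw [hprod]
    simpa [dX] using h2

theorem contDiff_iteratedDeriv {f : ℝ → ℝ} (hf : ContDiff ℝ ∞ f) (k : ℕ) :
    ContDiff ℝ ∞ (iteratedDeriv k f) := by
  rw [iteratedDeriv_eq_iterate]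
  exact ContDiff.iterate_deriv k hf

theorem mixedDeriv_sep {g0 : ℝ → ℝ} {g : Fin 3 → ℝ → ℝ} (m : Fin 3)
    (h0 : ContDiff ℝ ∞ g0) (h : ∀ d, ContDiff ℝ ∞ (g d)) (ds : List (Fin 4)) :
    mixedDeriv ds (sep g0 g m)
      = sep (iteratedDeriv (ds.count 0) g0)
          (fun d => iteratedDeriv (ds.count d.succ) (g d)) m := by
  induction ds with
  | nil => simp [mixedDeriv]
  | cons d ds ih =>
    funext p
    show fderiv ℝ (mixedDeriv ds (sep g0 g m)) p (direction d) = _
    rw [ih, fderiv_sep_direction m (contDiff_iteratedDeriv h0 _)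
      (fun e => contDiff_iteratedDeriv (h e) _)]
    congr 1
    · unfold dT
      by_cases hd : d = 0
      · subst hd
        simp [iteratedDeriv_succ]
      · simp [hd]
    · funext e
      unfold dX
      by_cases hd : d = e.succ
      · subst hd
        simp [iteratedDeriv_succ]
      · simp [hd]

theorem spaceDiv_sep {g0 : ℝ → ℝ} {g : Fin 3 → ℝ → ℝ} (m : Fin 3)
    (h0 : ContDiff ℝ ∞ g0) (h : ∀ d, ContDiff ℝ ∞ (g d)) (p : ℝ × E3) :
    spaceDiv (sep g0 g m) p
      = g0 p.1 * ∏ d : Fin 3, (Function.update g m (deriv (g m))) d (p.2 d) := by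
  unfold spaceDiv
  have hterm : ∀ j : Fin 3, fderiv ℝ (sep g0 g m) p ((0 : ℝ), (Pi.single j 1 : Fin 3 → ℝ)) j
      = sep (dT j.succ g0) (dX j.succ g) m p j := by
    intro j
    rw [← direction_succ, fderiv_sep_direction m h0 h]
  rw [Finset.sum_congr rfl fun j _ => hterm j, Finset.sum_eq_single m]
  · rw [sep_apply_same]
    have hT : dT m.succ g0 = g0 := by simp [dT, Fin.succ_ne_zero]
    rw [hT]
    congr 1
    apply Finset.prod_congr rfl
    intro d _
    by_cases hd : d = m
    · subst hd; simp [dX]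
    · have h' : m.succ ≠ d.succ := fun hh => hd (Fin.succ_injective _ hh).symm
      simp [dX, h', Function.update_of_ne hd]
  · intro j _ hj
    exact sep_apply_ne _ _ hj p
  · intro hm
    exact absurd (Finset.mem_univ m) hm

/-! ### primitive recursive approximation of real valued functions -/

/-- `v : X → ℝ` has a primitive recursive rational approximation and a primitive recursive bound. -/
def PRApprox {X : Type} [Primcodable X] (v : X → ℝ) : Prop :=
  ∃ (A : X × ℕ → ℚ) (B : X → ℕ), Primrec A ∧ Primrec B ∧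
    (∀ x n, |v x - (A (x, n) : ℝ)| ≤ 1 / ((n : ℝ) + 1)) ∧ ∀ x, |v x| ≤ (B x : ℝ)

theorem PRApprox.comp {X Y : Type} [Primcodable X] [Primcodable Y] {v : X → ℝ}
    (hv : PRApprox v) {f : Y → X} (hf : Primrec f) : PRApprox (fun y => v (f y)) := by
  obtain ⟨A, B, hA, hB, h1, h2⟩ := hv
  refine ⟨fun y => A (f y.1, y.2), fun y => B (f y), ?_, hB.comp hf, fun y n => h1 (f y) n,
    fun y => h2 (f y)⟩
  exact hA.comp (Primrec.pair (hf.comp Primrec.fst) Primrec.snd)

theorem PRApprox.mul {X : Type} [Primcodable X] {v w : X → ℝ}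
    (hv : PRApprox v) (hw : PRApprox w) : PRApprox (fun x => v x * w x) := by
  obtain ⟨A, B, hA, hB, h1, h2⟩ := hv
  obtain ⟨A', B', hA', hB', h1', h2'⟩ := hw
  have hN : Primrec (fun y : X × ℕ => (y.2 + 1) * (B y.1 + B' y.1 + 1)) :=
    Primrec.nat_mul.comp (Primrec.succ.comp Primrec.snd)
      (Primrec.succ.comp (Primrec.nat_add.comp (hB.comp Primrec.fst) (hB'.comp Primrec.fst)))
  refine ⟨fun y => A (y.1, (y.2 + 1) * (B y.1 + B' y.1 + 1)) *
      A' (y.1, (y.2 + 1) * (B y.1 + B' y.1 + 1)), fun x => B x * B' x, ?_, ?_, ?_, ?_⟩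
  · exact pr_mul (hA.comp (Primrec.pair Primrec.fst hN)) (hA'.comp (Primrec.pair Primrec.fst hN))
  · exact Primrec.nat_mul.comp hB hB'
  · intro x n
    set N : ℕ := (n + 1) * (B x + B' x + 1) with hNdef
    have e1 := h1 x N
    have e2 := h1' x N
    have b1 := h2 x
    have b2 := h2' x
    set a := v x
    set b := w x
    set a' : ℝ := (A (x, N) : ℝ)
    set b' : ℝ := (A' (x, N) : ℝ)
    set δ : ℝ := 1 / ((N : ℝ) + 1) with hδ
    have hδ0 : 0 < δ := by positivity
    have hδ1 : δ ≤ 1 := by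
      rw [hδ, div_le_one (by positivity)]
      have : (0 : ℝ) ≤ N := Nat.cast_nonneg N
      linarith
    have hS : (0 : ℝ) < (B x : ℝ) + B' x + 1 := by positivity
    have hδS : δ * ((B x : ℝ) + B' x + 1) ≤ 1 / ((n : ℝ) + 1) := by
      rw [hδ, div_mul_eq_mul_div, one_mul, div_le_div_iff₀ (by positivity) (by positivity)]
      have : (N : ℝ) = ((n : ℝ) + 1) * ((B x : ℝ) + B' x + 1) := by
        rw [hNdef]; push_cast; ring
      rw [this]
      nlinarith
    have hb' : |b'| ≤ (B' x : ℝ) + δ := by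
      have : |b'| ≤ |b| + |b - b'| := by
        have := abs_sub_abs_le_abs_sub b' b
        rw [abs_sub_comm b' b] at this
        linarith
      linarith
    have key : a * b - a' * b' = a * (b - b') + (a - a') * b' := by ring
    push_cast
    show |a * b - a' * b'| ≤ _
    rw [key]
    calc |a * (b - b') + (a - a') * b'| ≤ |a| * |b - b'| + |a - a'| * |b'| := by
          rw [← abs_mul, ← abs_mul]; exact abs_add_le _ _
      _ ≤ (B x : ℝ) * δ + δ * ((B' x : ℝ) + δ) := by
          apply add_le_add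
          · exact mul_le_mul b1 e2 (abs_nonneg _) (Nat.cast_nonneg _)
          · exact mul_le_mul e1 hb' (abs_nonneg _) hδ0.le
      _ ≤ δ * ((B x : ℝ) + B' x + 1) := by nlinarith
      _ ≤ _ := hδS
  · intro x
    rw [abs_mul]
    push_cast
    exact mul_le_mul (h2 x) (h2' x) (abs_nonneg _) (Nat.cast_nonneg _)

theorem Eff1.prApprox {g : ℝ → ℝ} (hg : Eff1 g) :
    PRApprox (fun x : ℕ × ℚ => iteratedDeriv x.1 g (x.2 : ℝ)) := by
  obtain ⟨A, hA, h1⟩ := hg.approx
  obtain ⟨B, hB, h2⟩ := hg.bound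
  refine ⟨fun y => A (y.1.1, y.1.2, y.2), fun x => B x.1, ?_, hB.comp Primrec.fst,
    fun x n => h1 x.1 x.2 n, fun x => h2 x.1 _⟩
  exact hA.comp (Primrec.pair (Primrec.fst.comp Primrec.fst)
    (Primrec.pair (Primrec.snd.comp Primrec.fst) Primrec.snd))

theorem primrec_count (d : Fin 4) : Primrec (fun ds : List (Fin 4) => ds.count d) := by
  have h : Primrec (fun ds : List (Fin 4) => (ds.filter (fun x => decide (x = d))).length) :=
    Primrec.list_length.comp
      (Primrec.listFilter (p := fun x : Fin 4 => x = d) (Primrec.eq.comp Primrec.id (Primrec.const d)))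
  refine h.of_eq fun ds => ?_
  rw [List.count, List.countP_eq_length_filter]
  congr 1

theorem primrec_pi {α : Type} [Primcodable α] {k : ℕ} {F : α → Fin k → ℚ}
    (h : ∀ j, Primrec fun a => F a j) : Primrec F :=
  Primrec.fin_curry.2 (Primrec₂.swap (Primrec.fin_curry₁.2 h))

/-! ### effectivity -/

theorem effective_zero : Effective (0 : Field) := by
  refine ⟨fun _ => 0, fun _ => 0, Computable.const _, Computable.const _, ?_, ?_⟩
  · intro ds t q n j
    rw [mixedDeriv_zero]
    simp only [Pi.zero_apply, Rat.cast_zero, sub_zero, abs_zero]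
    positivity
  · intro ds p j
    rw [mixedDeriv_zero]
    simp

theorem Effective.add {U V : Field} (hU : ContDiff ℝ ∞ U) (hV : ContDiff ℝ ∞ V)
    (eU : Effective U) (eV : Effective V) : Effective (U + V) := by
  obtain ⟨E, b, hE, hb, h1, h2⟩ := eU
  obtain ⟨E', b', hE', hb', h1', h2'⟩ := eV
  have hadd : Primrec₂ (fun (u v : Fin 3 → ℚ) => (fun j => u j + v j : Fin 3 → ℚ)) := by
    apply primrec_pi
    intro j
    exact pr_add (pr_app Primrec.fst j) (pr_app Primrec.snd j)
  have hre : Primrec (fun x : List (Fin 4) × (ℚ × (Fin 3 → ℚ)) × ℕ =>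
      ((x.1, x.2.1, 2 * x.2.2 + 1) : List (Fin 4) × (ℚ × (Fin 3 → ℚ)) × ℕ)) :=
    Primrec.pair Primrec.fst (Primrec.pair (Primrec.fst.comp Primrec.snd)
      (Primrec.succ.comp (Primrec.nat_mul.comp (Primrec.const 2)
        (Primrec.snd.comp Primrec.snd))))
  refine ⟨fun x => fun j => E (x.1, x.2.1, 2 * x.2.2 + 1) j + E' (x.1, x.2.1, 2 * x.2.2 + 1) j,
    fun ds => b ds + b' ds, ?_, ?_, ?_, ?_⟩
  · exact hadd.to_comp.comp (hE.comp hre.to_comp) (hE'.comp hre.to_comp)
  · exact Primrec.nat_add.to_comp.comp hb hb'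
  · intro ds t q n j
    rw [mixedDeriv_add hU hV]
    have e1 := h1 ds t q (2 * n + 1) j
    have e2 := h1' ds t q (2 * n + 1) j
    have hhalf : (1 : ℝ) / (((2 * n + 1 : ℕ) : ℝ) + 1) = 1 / ((n : ℝ) + 1) / 2 := by
      push_cast
      field_simp
      ring
    rw [hhalf] at e1 e2
    simp only [Pi.add_apply]
    push_cast
    have key : mixedDeriv ds U ((t : ℝ), ratPoint q) j + mixedDeriv ds V ((t : ℝ), ratPoint q) j
        - ((E (ds, (t, q), 2 * n + 1) j : ℝ) + (E' (ds, (t, q), 2 * n + 1) j : ℝ))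
        = (mixedDeriv ds U ((t : ℝ), ratPoint q) j - (E (ds, (t, q), 2 * n + 1) j : ℝ))
          + (mixedDeriv ds V ((t : ℝ), ratPoint q) j - (E' (ds, (t, q), 2 * n + 1) j : ℝ)) := by
      ring
    rw [key]
    refine (abs_add_le _ _).trans ?_
    linarith
  · intro ds p j
    rw [mixedDeriv_add hU hV]
    simp only [Pi.add_apply]
    push_cast
    exact (abs_add_le _ _).trans (add_le_add (h2 ds p j) (h2' ds p j))

theorem effective_sep {g0 : ℝ → ℝ} {g : Fin 3 → ℝ → ℝ} (m : Fin 3)
    (h0 : Eff1 g0) (h : ∀ d, Eff1 (g d)) : Effective (sep g0 g m) := by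
  -- the scalar function to approximate
  have hq : ∀ d : Fin 3, Primrec (fun x : List (Fin 4) × ℚ × (Fin 3 → ℚ) => x.2.2 d) :=
    fun d => pr_app (Primrec.snd.comp Primrec.snd) d
  have a0 : PRApprox (fun x : List (Fin 4) × ℚ × (Fin 3 → ℚ) =>
      iteratedDeriv (x.1.count 0) g0 ((x.2.1 : ℚ) : ℝ)) :=
    h0.prApprox.comp (f := fun x : List (Fin 4) × ℚ × (Fin 3 → ℚ) => (x.1.count 0, x.2.1))
      (Primrec.pair ((primrec_count 0).comp Primrec.fst) (Primrec.fst.comp Primrec.snd))
  have a : ∀ d : Fin 3, PRApprox (fun x : List (Fin 4) × ℚ × (Fin 3 → ℚ) =>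
      iteratedDeriv (x.1.count d.succ) (g d) ((x.2.2 d : ℚ) : ℝ)) := fun d =>
    (h d).prApprox.comp (f := fun x : List (Fin 4) × ℚ × (Fin 3 → ℚ) => (x.1.count d.succ, x.2.2 d))
      (Primrec.pair ((primrec_count d.succ).comp Primrec.fst) (hq d))
  obtain ⟨A, -, hA, -, hA1, -⟩ := a0.mul (((a 0).mul (a 1)).mul (a 2))
  obtain ⟨B0, hB0, hb0⟩ := h0.bound
  have hB : ∀ d, ∃ B : ℕ → ℕ, Primrec B ∧ ∀ (k : ℕ) (x : ℝ), |iteratedDeriv k (g d) x| ≤ (B k : ℝ) :=
    fun d => (h d).bound
  choose B hBp hb using hB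
  have hmd := mixedDeriv_sep m h0.smooth (fun d => (h d).smooth)
  refine ⟨fun x => Pi.single m (A ((x.1, x.2.1.1, x.2.1.2), x.2.2)),
    fun ds => B0 (ds.count 0) * (B 0 (ds.count (0 : Fin 3).succ) * B 1 (ds.count (1 : Fin 3).succ)
      * B 2 (ds.count (2 : Fin 3).succ)), ?_, ?_, ?_, ?_⟩
  · apply Primrec.to_comp
    apply primrec_pi
    intro j
    by_cases hj : j = m
    · subst hj
      simp only [Pi.single_eq_same]
      exact hA.comp (Primrec.pair (Primrec.pair Primrec.fst
        (Primrec.pair (Primrec.fst.comp (Primrec.fst.comp Primrec.snd))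
          (Primrec.snd.comp (Primrec.fst.comp Primrec.snd)))) (Primrec.snd.comp Primrec.snd))
    · simp only [Pi.single_eq_of_ne hj]
      exact Primrec.const 0
  · apply Primrec.to_comp
    exact Primrec.nat_mul.comp (hB0.comp (primrec_count 0))
      (Primrec.nat_mul.comp (Primrec.nat_mul.comp ((hBp 0).comp (primrec_count _))
        ((hBp 1).comp (primrec_count _))) ((hBp 2).comp (primrec_count _)))
  · intro ds t q n j
    rw [hmd]
    by_cases hj : j = m
    · subst hj
      rw [sep_apply_same, Fin.prod_univ_three]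
      simp only [Pi.single_eq_same]
      exact hA1 (ds, t, q) n
    · rw [sep_apply_ne _ _ hj]
      simp only [Pi.single_eq_of_ne hj, Rat.cast_zero, sub_zero, abs_zero]
      positivity
  · intro ds p j
    rw [hmd]
    by_cases hj : j = m
    · subst hj
      rw [sep_apply_same, Fin.prod_univ_three]
      push_cast
      rw [abs_mul, abs_mul, abs_mul]
      have n0 := hb0 (ds.count 0) p.1
      have n1 := hb 0 (ds.count (0 : Fin 3).succ) (p.2 0)
      have n2 := hb 1 (ds.count (1 : Fin 3).succ) (p.2 1)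
      have n3 := hb 2 (ds.count (2 : Fin 3).succ) (p.2 2)
      exact mul_le_mul n0 (mul_le_mul (mul_le_mul n1 n2 (abs_nonneg _) (Nat.cast_nonneg _)) n3
        (abs_nonneg _) (by positivity)) (by positivity) (Nat.cast_nonneg _)
    · rw [sep_apply_ne _ _ hj, abs_zero]
      exact Nat.cast_nonneg _

/-! ### good fields -/

theorem Good.zero (s0 s1 : ℝ) : Good (0 : Field) s0 s1 where
  smooth := contDiff_const
  compact := HasCompactSupport.zero
  eff := effective_zero
  time := fun _ _ => rfl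
  div := spaceDiv_zero

theorem Good.add {U V : Field} {s0 s1 s2 : ℝ} (h01 : s0 ≤ s1) (h12 : s1 ≤ s2)
    (hU : Good U s0 s1) (hV : Good V s1 s2) : Good (U + V) s0 s2 where
  smooth := hU.smooth.add hV.smooth
  compact := hU.compact.add hV.compact
  eff := Effective.add hU.smooth hV.smooth hU.eff hV.eff
  time := by
    intro p hp
    have h1 : p.1 ∉ Set.Ioo s0 s1 := fun hh => hp ⟨hh.1, hh.2.trans_le h12⟩
    have h2 : p.1 ∉ Set.Ioo s1 s2 := fun hh => hp ⟨h01.trans_lt hh.1, hh.2⟩
    simp [hU.time p h1, hV.time p h2]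
  div := by
    intro p
    rw [spaceDiv_add hU.smooth hV.smooth, hU.div, hV.div, add_zero]

/-- same time interval version -/
theorem Good.add' {U V : Field} {s0 s1 : ℝ}
    (hU : Good U s0 s1) (hV : Good V s0 s1) : Good (U + V) s0 s1 where
  smooth := hU.smooth.add hV.smooth
  compact := hU.compact.add hV.compact
  eff := Effective.add hU.smooth hV.smooth hU.eff hV.eff
  time := by
    intro p hp
    simp [hU.time p hp, hV.time p hp]
  div := by
    intro p
    rw [spaceDiv_add hU.smooth hV.smooth, hU.div, hV.div, add_zero]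

theorem Good.mono {U : Field} {s0 s1 r0 r1 : ℝ} (h0 : r0 ≤ s0) (h1 : s1 ≤ r1)
    (hU : Good U s0 s1) : Good U r0 r1 where
  smooth := hU.smooth
  compact := hU.compact
  eff := hU.eff
  time := fun p hp => hU.time p fun hh => hp ⟨h0.trans_lt hh.1, hh.2.trans_le h1⟩
  div := hU.div

end Crest.Agent.BoxFlow
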