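import Crest.Agent.Lib_BoxFlow.Defs
import Crest.Agent.Lib_BoxFlow.Sep

/-!
S0170, package B6 (helper2): existence of the flow of a smooth compactly supported field which is
active only in `[1/4, 3/4]`; `Carries` from explicit curves (uniqueness); calculus of `Realizable`.
-/

set_option autoImplicit false

namespace Crest.Agent.BoxFlow

open Crest.AnalysisR.BoxFlow Set Filter
open scoped ContDiff NNReal Topology

/-! ### slices -/

theorem lipschitz_slice {U : Field} {C : ℝ≥0} (hU : LipschitzWith C U) (t : ℝ) :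
    LipschitzWith C (fun x : E3 => U (t, x)) := by
  have h : LipschitzWith 1 (Prod.mk t : E3 → ℝ × E3) := LipschitzWith.prodMk_left t
  have h2 := hU.comp h
  rw [mul_one] at h2
  exact h2

/-- A curve with zero right derivative on `[a, b)` is constant on `[a, b]`; version for solutions. -/
theorem const_of_field_zero {U : Field} {y : ℝ → E3} {a b : ℝ}
    (hy : ∀ t ∈ Icc a b, HasDerivWithinAt y (U (t, y t)) (Icc a b) t)
    (hU : ∀ t ∈ Ico a b, ∀ x, U (t, x) = 0) : ∀ t ∈ Icc a b, y t = y a := by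
  refine constant_of_has_deriv_right_zero (fun t ht => (hy t ht).continuousWithinAt) ?_
  intro t ht
  have h1 := (hy t (Ico_subset_Icc_self ht)).mono_of_mem_nhdsWithin (Icc_mem_nhdsGE_of_mem ht)
  rwa [hU t ht] at h1

/-! ### (b) uniqueness -/

theorem carries_of_curve {U : Field} {C : ℝ≥0} (hU : LipschitzWith C U) {s0 s1 : ℝ}
    (hs : s0 ≤ s1) {K : Set E3} {R : E3 → E3}
    (h : ∀ z ∈ K, ∃ c : ℝ → E3,
      (∀ t ∈ Icc s0 s1, HasDerivWithinAt c (U (t, c t)) (Icc s0 s1) t) ∧ c s0 = z ∧ c s1 = R z) :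
    Carries U s0 s1 K R := by
  intro y hy hyK
  obtain ⟨c, hc, hc0, hc1⟩ := h _ hyK
  have key : EqOn y c (Icc s0 s1) :=
    ODE_solution_unique (v := fun t x => U (t, x)) (K := C) (fun t => lipschitz_slice hU t)
      (fun t ht => (hy t ht).continuousWithinAt)
      (fun t ht => (hy t (Ico_subset_Icc_self ht)).mono_of_mem_nhdsWithin
        (Icc_mem_nhdsGE_of_mem ht))
      (fun t ht => (hc t ht).continuousWithinAt)
      (fun t ht => (hc t (Ico_subset_Icc_self ht)).mono_of_mem_nhdsWithin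
        (Icc_mem_nhdsGE_of_mem ht))
      hc0.symm
  rw [key (right_mem_Icc.mpr hs), hc1]

/-! ### (a) existence of the flow -/

theorem exists_curve {U : Field} (hU : Continuous U) {C : ℝ≥0} (hL : LipschitzWith C U)
    {L : ℝ≥0} (hB : ∀ p, ‖U p‖ ≤ L) (x : E3) :
    ∃ α : ℝ → E3, α 0 = x ∧
      ∀ t ∈ Icc (-1 : ℝ) 2, HasDerivWithinAt α (U (t, α t)) (Icc (-1 : ℝ) 2) t := by
  have h0 : (0 : ℝ) ∈ Icc (-1 : ℝ) 2 := ⟨by norm_num, by norm_num⟩
  have hPL : IsPicardLindelof (fun t x => U (t, x)) (tmin := -1) (tmax := 2) ⟨0, h0⟩ x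
      (2 * L) 0 L C :=
    { lipschitzOnWith := fun t _ => (lipschitz_slice hL t).lipschitzOnWith
      continuousOn := fun x _ => (hU.comp (by fun_prop : Continuous fun t : ℝ => (t, x))).continuousOn
      norm_le := fun t _ x _ => hB (t, x)
      mul_max_le := by
        have : max ((2 : ℝ) - 0) (0 - (-1)) = 2 := by norm_num
        simp only [this]
        push_cast
        linarith }
  obtain ⟨α, h1, h2⟩ := hPL.exists_eq_forall_mem_Icc_hasDerivWithinAt₀
  exact ⟨α, h1, h2⟩

theorem exists_flow {U : Field} (hs : ContDiff ℝ ∞ U) (hc : HasCompactSupport U)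
    (ht : ∀ p : ℝ × E3, p.1 ∉ Icc (1 / 4 : ℝ) (3 / 4) → U p = 0) : ∃ Φ, IsFlow U Φ := by
  obtain ⟨C, hC⟩ := ContDiff.lipschitzWith_of_hasCompactSupport hc hs (by simp)
  obtain ⟨L0, hL0⟩ := hc.exists_bound_of_continuous hs.continuous
  have hB : ∀ p, ‖U p‖ ≤ (Real.toNNReal L0 : ℝ≥0) := fun p =>
    (hL0 p).trans (Real.le_coe_toNNReal L0)
  choose α hα0 hα using fun x => exists_curve hs.continuous hC hB x
  refine ⟨fun t x => α x (max 0 (min t 1)), fun x => ?_, fun t x => ?_⟩
  · simp [hα0]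
  show HasDerivAt (fun s => α x (max 0 (min s 1))) (U (t, α x (max 0 (min t 1)))) t
  -- constancy of `α x` before `1/4` and after `3/4`
  have hleft : ∀ s ∈ Icc (-1 : ℝ) (1 / 4), α x s = α x (-1) := by
    refine const_of_field_zero (U := U) (fun s hs' => ?_) (fun s hs' z => ?_)
    · exact (hα x s ⟨hs'.1, by linarith [hs'.2]⟩).mono (Icc_subset_Icc_right (by norm_num))
    · exact ht _ (fun h => by have := h.1; have := hs'.2; simp only at *; linarith)
  have hright : ∀ s ∈ Icc (1 : ℝ) 2, α x s = α x 1 := by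
    refine const_of_field_zero (U := U) (fun s hs' => ?_) (fun s hs' z => ?_)
    · exact (hα x s ⟨by linarith [hs'.1], hs'.2⟩).mono (Icc_subset_Icc_left (by norm_num))
    · exact ht _ (fun h => by have := h.2; have := hs'.1; simp only at *; linarith)
  have hclamp : ∀ s ∈ Icc (-1 : ℝ) 2, α x (max 0 (min s 1)) = α x s := by
    intro s hs'
    rcases le_total s 0 with h0 | h0
    · rw [min_eq_left (by linarith), max_eq_left h0,
        hleft 0 ⟨by norm_num, by norm_num⟩, hleft s ⟨hs'.1, by linarith⟩]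
    rcases le_total s 1 with h1 | h1
    · rw [min_eq_left h1, max_eq_right h0]
    · rw [min_eq_right h1, max_eq_right zero_le_one, hright s ⟨h1, hs'.2⟩]
  rcases lt_or_ge t (-1 / 2) with h1 | h1
  · -- locally constant
    have hU0 : U (t, α x (max 0 (min t 1))) = 0 :=
      ht _ (fun h => by have := h.1; simp only at *; linarith)
    rw [hU0]
    refine (hasDerivAt_const t (α x 0)).congr_of_eventuallyEq ?_
    filter_upwards [Iio_mem_nhds (show t < 0 by linarith)] with s hs'
    rw [min_eq_left (by linarith [mem_Iio.mp hs']), max_eq_left (mem_Iio.mp hs').le]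
  rcases lt_or_ge (3 / 2) t with h2 | h2
  · have hU0 : U (t, α x (max 0 (min t 1))) = 0 :=
      ht _ (fun h => by have := h.2; simp only at *; linarith)
    rw [hU0]
    refine (hasDerivAt_const t (α x 1)).congr_of_eventuallyEq ?_
    filter_upwards [Ioi_mem_nhds (show 1 < t by linarith)] with s hs'
    rw [min_eq_right (mem_Ioi.mp hs').le, max_eq_right zero_le_one]
  · have hmem : t ∈ Icc (-1 : ℝ) 2 := ⟨by linarith, by linarith⟩
    rw [hclamp t hmem]
    have h3 : HasDerivAt (α x) (U (t, α x t)) t :=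
      (hα x t hmem).hasDerivAt (Icc_mem_nhds (by linarith) (by linarith))
    refine h3.congr_of_eventuallyEq ?_
    filter_upwards [Icc_mem_nhds (show (-1 : ℝ) < t by linarith) (show t < 2 by linarith)]
      with s hs' using hclamp s hs'

/-! ### (c) calculus of `Realizable` -/

theorem Realizable.refl {ι : Type} (K : ι → Set E3) : Realizable K (fun _ => id) := by
  intro s0 s1 hs
  refine ⟨0, Good.zero _ _, fun i => ?_⟩
  have hs' : (s0 : ℝ) ≤ s1 := by exact_mod_cast hs.le
  refine carries_of_curve (C := 0) (LipschitzWith.const (0 : Fin 3 → ℝ)) hs' fun z _ => ?_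
  exact ⟨fun _ => z, fun t _ => hasDerivWithinAt_const _ _ _, rfl, rfl⟩

theorem Realizable.mono {ι : Type} {K K' : ι → Set E3} {R : ι → E3 → E3} (h : Realizable K R)
    (hK : ∀ i, K' i ⊆ K i) : Realizable K' R := by
  intro s0 s1 hs
  obtain ⟨U, hU, hc⟩ := h s0 s1 hs
  exact ⟨U, hU, fun i y hy hy0 => hc i y hy (hK i hy0)⟩

/-- only the values of `R` on `K` matter -/
theorem Realizable.congr {ι : Type} {K : ι → Set E3} {R R' : ι → E3 → E3} (h : Realizable K R)
    (hR : ∀ i, ∀ x ∈ K i, R i x = R' i x) : Realizable K R' := by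
  intro s0 s1 hs
  obtain ⟨U, hU, hc⟩ := h s0 s1 hs
  exact ⟨U, hU, fun i y hy hy0 => (hc i y hy hy0).trans (hR i _ hy0)⟩

/-- The statement that good fields on consecutive time intervals can be added (package B5). -/
def GoodAddStmt : Prop :=
  ∀ (U V : Field) (s0 s1 s2 : ℝ), s0 ≤ s1 → s1 ≤ s2 → Good U s0 s1 → Good V s1 s2 →
    Good (U + V) s0 s2

theorem Realizable.trans (hadd : GoodAddStmt) {ι : Type} {K K' : ι → Set E3}
    {R R' : ι → E3 → E3} (h : Realizable K R) (h' : Realizable K' R')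
    (hm : ∀ i, MapsTo (R i) (K i) (K' i)) : Realizable K (fun i => R' i ∘ R i) := by
  intro s0 s1 hs
  set mid : ℚ := (s0 + s1) / 2 with hmid
  have h1 : s0 < mid := by rw [hmid]; linarith
  have h2 : mid < s1 := by rw [hmid]; linarith
  have h1' : (s0 : ℝ) < mid := by exact_mod_cast h1
  have h2' : (mid : ℝ) < s1 := by exact_mod_cast h2
  obtain ⟨U, hU, hcU⟩ := h s0 mid h1
  obtain ⟨V, hV, hcV⟩ := h' mid s1 h2
  refine ⟨U + V, hadd U V _ _ _ h1'.le h2'.le hU hV, fun i y hy hy0 => ?_⟩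
  have e1 : y mid = R i (y s0) := by
    refine hcU i y (fun t ht => ?_) hy0
    have := (hy t ⟨ht.1, ht.2.trans h2'.le⟩).mono (Icc_subset_Icc_right h2'.le)
    have hV0 : V (t, y t) = 0 := hV.time _ (fun h => absurd h.1 (not_lt.mpr ht.2))
    rwa [Pi.add_apply, hV0, add_zero] at this
  have e2 : y s1 = R' i (y mid) := by
    refine hcV i y (fun t ht => ?_) (e1 ▸ hm i hy0)
    have := (hy t ⟨h1'.le.trans ht.1, ht.2⟩).mono (Icc_subset_Icc_left h1'.le)
    have hU0 : U (t, y t) = 0 := hU.time _ (fun h => absurd h.2 (not_lt.mpr ht.1))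
    rwa [Pi.add_apply, hU0, zero_add] at this
  rw [e2, e1]
  rfl

theorem goodAddStmt : GoodAddStmt := fun _ _ _ _ _ h01 h12 hU hV => Good.add h01 h12 hU hV

theorem good_add : GoodAddStmt := goodAddStmt

/-- `Realizable.trans` without the extra hypothesis. -/
theorem Realizable.trans' {ι : Type} {K K' : ι → Set E3}
    {R R' : ι → E3 → E3} (h : Realizable K R) (h' : Realizable K' R')
    (hm : ∀ i, MapsTo (R i) (K i) (K' i)) : Realizable K (fun i => R' i ∘ R i) :=
  Realizable.trans goodAddStmt h h' hm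

/-! ### (d) the final statement -/

theorem Realizable.final {ι : Type} {K : ι → Set E3} {R : ι → E3 → E3} (h : Realizable K R) :
    ∃ (U : Field) (Φ : ℝ → E3 → E3), ContDiff ℝ ∞ U ∧ HasCompactSupport U ∧ Effective U ∧
      (∀ p : ℝ × E3, p.1 ∉ Icc (1 / 4 : ℝ) (3 / 4) → U p = 0) ∧
      (∀ p : ℝ × E3, spaceDiv U p = 0) ∧ IsFlow U Φ ∧ ∀ i, ∀ x ∈ K i, Φ 1 x = R i x := by
  obtain ⟨U, hU, hc⟩ := h (1 / 4) (3 / 4) (by norm_num)
  have c1 : ((1 / 4 : ℚ) : ℝ) = 1 / 4 := by norm_num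
  have c2 : ((3 / 4 : ℚ) : ℝ) = 3 / 4 := by norm_num
  rw [c1, c2] at hU
  simp only [c1, c2] at hc
  have ht : ∀ p : ℝ × E3, p.1 ∉ Icc (1 / 4 : ℝ) (3 / 4) → U p = 0 := fun p hp =>
    hU.time p (fun h => hp (Ioo_subset_Icc_self h))
  obtain ⟨Φ, hΦ⟩ := exists_flow hU.smooth hU.compact ht
  refine ⟨U, Φ, hU.smooth, hU.compact, hU.eff, ht, hU.div, hΦ, fun i x hx => ?_⟩
  set y : ℝ → E3 := fun s => Φ s x with hy
  have hyd : ∀ (a b : ℝ), ∀ t ∈ Icc a b, HasDerivWithinAt y (U (t, y t)) (Icc a b) t :=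
    fun a b t _ => (hΦ.2 t x).hasDerivWithinAt
  have e0 : y (1 / 4) = x := by
    have := const_of_field_zero (hyd 0 (1 / 4))
      (fun t ht' z => hU.time _ (fun h => absurd h.1 (not_lt.mpr ht'.2.le))) (1 / 4)
      ⟨by norm_num, le_rfl⟩
    rw [this]
    exact hΦ.1 x
  have e1 : y (3 / 4) = R i (y (1 / 4)) := hc i y (hyd _ _) (e0 ▸ hx)
  have e2 : y 1 = y (3 / 4) :=
    const_of_field_zero (hyd (3 / 4) 1)
      (fun t ht' z => hU.time _ (fun h => absurd h.2 (not_lt.mpr ht'.1))) 1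
      ⟨by norm_num, le_rfl⟩
  show y 1 = R i x
  rw [e2, e1, e0]

end Crest.Agent.BoxFlow
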