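import Crest.Agent.Lib_BoxFlow.Rescale
import Crest.Agent.Lib_BoxFlow.Flow

/-!
Package B10 of S0170: the statement of S0170 from the realizability of the elementary moves
(`ElemStmt`) and additivity of good fields (`GoodAddStmt`).
-/

set_option autoImplicit false

namespace Crest.Agent.BoxFlow

open Crest.AnalysisR.BoxFlow
open scoped ContDiff

lemma kit_of (elem : ElemStmt) (hadd : GoodAddStmt) : Kit where
  elem := elem
  refl := fun K => Realizable.refl K
  mono := fun hK h => h.mono hK
  trans := fun h h' hm => Realizable.trans hadd h h' hm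

/-- disjoint boxes are separated in some coordinate -/
lemma sep_of_disjoint (c c' w w' : Fin 3 → ℚ) (hw : ∀ d, 0 < w d) (hw' : ∀ d, 0 < w' d)
    (h : Disjoint (box c w) (box c' w')) : ∃ d, w d + w' d < |c d - c' d| := by
  by_contra hcon
  push_neg at hcon
  rw [Set.disjoint_left] at h
  refine h (a := fun d => ((c d * w' d + c' d * w d) / (w d + w' d) : ℚ)) ?_ ?_
  · intro d
    have h1 := hw d
    have h2 := hw' d
    have h3 := hcon d
    have e : (c d * w' d + c' d * w d) / (w d + w' d) - c d = (c' d - c d) * w d / (w d + w' d) := by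
      field_simp
      ring
    have h4 : |(c d * w' d + c' d * w d) / (w d + w' d) - c d| ≤ w d := by
      rw [e, abs_div, abs_mul, abs_of_pos h1, abs_of_pos (by linarith : 0 < w d + w' d),
        div_le_iff₀ (by linarith), abs_sub_comm]
      nlinarith
    show |(((c d * w' d + c' d * w d) / (w d + w' d) : ℚ) : ℝ) - _| ≤ _
    exact_mod_cast h4
  · intro d
    have h1 := hw d
    have h2 := hw' d
    have h3 := hcon d
    have e : (c d * w' d + c' d * w d) / (w d + w' d) - c' d = (c d - c' d) * w' d / (w d + w' d) := by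
      field_simp
      ring
    have h4 : |(c d * w' d + c' d * w d) / (w d + w' d) - c' d| ≤ w' d := by
      rw [e, abs_div, abs_mul, abs_of_pos h2, abs_of_pos (by linarith : 0 < w d + w' d),
        div_le_iff₀ (by linarith)]
      nlinarith
    show |(((c d * w' d + c' d * w d) / (w d + w' d) : ℚ) : ℝ) - _| ≤ _
    exact_mod_cast h4

/-- a uniform positive slack for finitely many strict inequalities -/
lemma exists_slack {ι : Type} [Finite ι] (P : ι → ℚ → Prop)
    (hmono : ∀ i ε ε', ε' ≤ ε → P i ε → P i ε') (h : ∀ i, ∃ ε, 0 < ε ∧ P i ε) :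
    ∃ ε, 0 < ε ∧ ∀ i, P i ε := by
  choose f hf0 hf using h
  rcases isEmpty_or_nonempty ι with hι | hι
  · exact ⟨1, one_pos, fun i => (hι.false i).elim⟩
  · obtain ⟨i0, hi0⟩ := Finite.exists_min f
    exact ⟨f i0, hf0 i0, fun i => hmono i _ _ (hi0 i) (hf i)⟩

lemma exists_sep {n : ℕ} (c w : Fin n → Fin 3 → ℚ) (hw : ∀ i d, 0 < w i d)
    (h : Pairwise fun i i' => Disjoint (box (c i) (w i)) (box (c i') (w i'))) :
    ∃ ε, 0 < ε ∧ ∀ i j, i ≠ j → ∃ d, w i d + w j d + ε ≤ |c i d - c j d| := by
  have := exists_slack (ι := Fin n × Fin n)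
    (fun p ε => p.1 ≠ p.2 → ∃ d, w p.1 d + w p.2 d + ε ≤ |c p.1 d - c p.2 d|)
    (fun p ε ε' hε hp hne => by
      obtain ⟨d, hd⟩ := hp hne
      exact ⟨d, by linarith⟩)
    (fun p => by
      by_cases hne : p.1 = p.2
      · exact ⟨1, one_pos, fun h => (h hne).elim⟩
      · obtain ⟨d, hd⟩ := sep_of_disjoint _ _ _ _ (hw p.1) (hw p.2) (h hne)
        exact ⟨|c p.1 d - c p.2 d| - (w p.1 d + w p.2 d), by linarith, fun _ => ⟨d, by linarith⟩⟩)
  obtain ⟨ε, hε, H⟩ := this
  exact ⟨ε, hε, fun i j hij => H (i, j) hij⟩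

theorem main (elem : ElemStmt) (hadd : GoodAddStmt)
    (n : ℕ) (a b h k : Fin n → Fin 3 → ℚ)
    (hh : ∀ i j, 0 < h i j) (hk : ∀ i j, 0 < k i j)
    (ha : Pairwise fun i i' => Disjoint (box (a i) (h i)) (box (a i') (h i')))
    (hb : Pairwise fun i i' => Disjoint (box (b i) (k i)) (box (b i') (k i')))
    (hvol : ∀ i, ∏ j : Fin 3, k i j / h i j = 1) :
    ∃ (U : Field) (Φ : ℝ → (Fin 3 → ℝ) → (Fin 3 → ℝ)),
      ContDiff ℝ ∞ U ∧ HasCompactSupport U ∧ Effective U ∧
      (∀ p : ℝ × (Fin 3 → ℝ), p.1 ∉ Set.Icc (1 / 4 : ℝ) (3 / 4) → U p = 0) ∧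
      (∀ p : ℝ × (Fin 3 → ℝ), spaceDiv U p = 0) ∧ IsFlow U Φ ∧
      ∀ i : Fin n, ∃ O : Set (Fin 3 → ℝ), IsOpen O ∧ box (a i) (h i) ⊆ O ∧
        ∀ x ∈ O, Φ 1 x = fun j => (b i j : ℝ) + ((k i j / h i j : ℚ) : ℝ) * (x j - (a i j : ℝ)) := by
  have kit := kit_of elem hadd
  obtain ⟨ε1, hε1, hs1⟩ := exists_sep a h hh ha
  obtain ⟨ε2, hε2, hs2⟩ := exists_sep b k hk hb
  -- a common bound for the half-widths
  set H : ℚ := 1 + ∑ i, ∑ d, (h i d + k i d) with hH
  have hterm : ∀ i d, 0 ≤ h i d + k i d := fun i d => by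
    have := hh i d; have := hk i d; linarith
  have hHle : ∀ i d, h i d + k i d ≤ H := by
    intro i d
    have h1 : h i d + k i d ≤ ∑ d, (h i d + k i d) :=
      Finset.single_le_sum (f := fun d => h i d + k i d) (fun d _ => hterm i d) (Finset.mem_univ d)
    have h2 : ∑ d, (h i d + k i d) ≤ ∑ i, ∑ d, (h i d + k i d) :=
      Finset.single_le_sum (f := fun i => ∑ d, (h i d + k i d))
        (fun i _ => Finset.sum_nonneg (fun d _ => hterm i d)) (Finset.mem_univ i)
    linarith
  have hHpos : 0 < H := by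
    have : 0 ≤ ∑ i, ∑ d, (h i d + k i d) :=
      Finset.sum_nonneg (fun i _ => Finset.sum_nonneg (fun d _ => hterm i d))
    linarith
  set ε : ℚ := min ε1 ε2 with hε
  have hεpos : 0 < ε := lt_min hε1 hε2
  set μ : ℚ := ε / 2 with hμ
  set η : ℚ := ε / (4 * H) with hη
  have hηpos : 0 < η := by positivity
  have hηH : η * (2 * H) = ε / 2 := by
    simp only [hη]; field_simp; ring
  set u : Fin n → Fin 3 → ℚ := fun i d => (1 + η) * h i d with hu
  set v : Fin n → Fin 3 → ℚ := fun i d => (1 + η) * k i d with hv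
  have hupos : ∀ i d, 0 < u i d := fun i d => by have := hh i d; simp only [hu]; positivity
  have hvpos : ∀ i d, 0 < v i d := fun i d => by have := hk i d; simp only [hv]; positivity
  have hratio : ∀ i d, v i d / u i d = k i d / h i d := by
    intro i d
    simp only [hu, hv]
    rw [mul_div_mul_left _ _ (by positivity)]
  have hR : Reach a u b v := by
    refine plan kit a b u v μ (by positivity) hupos hvpos ?_ ?_ ?_
    · intro i j hij
      obtain ⟨d, hd⟩ := hs1 i j hij
      refine ⟨d, le_trans ?_ hd⟩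
      have h1 := hHle i d; have h2 := hHle j d
      have h3 := hk i d; have h4 := hk j d
      have h5 : ε ≤ ε1 := min_le_left _ _
      have h6 : η * (h i d + h j d) ≤ η * (2 * H) :=
        mul_le_mul_of_nonneg_left (by linarith) hηpos.le
      simp only [hu, hμ]
      linarith
    · intro i j hij
      obtain ⟨d, hd⟩ := hs2 i j hij
      refine ⟨d, le_trans ?_ hd⟩
      have h1 := hHle i d; have h2 := hHle j d
      have h3 := hh i d; have h4 := hh j d
      have h5 : ε ≤ ε2 := min_le_right _ _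
      have h6 : η * (k i d + k j d) ≤ η * (2 * H) :=
        mul_le_mul_of_nonneg_left (by linarith) hηpos.le
      simp only [hv, hμ]
      linarith
    · intro i
      rw [← hvol i]
      exact Finset.prod_congr rfl (fun d _ => hratio i d)
  obtain ⟨U, Φ, h1, h2, h3, h4, h5, h6, h7⟩ := Realizable.final hR
  refine ⟨U, Φ, h1, h2, h3, h4, h5, h6, fun i => ?_⟩
  refine ⟨{x | ∀ d, |x d - (a i d : ℝ)| < (u i d : ℝ)}, ?_, ?_, ?_⟩
  · rw [Set.setOf_forall]
    refine isOpen_iInter_of_finite (fun d => ?_)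
    exact isOpen_lt (by fun_prop) continuous_const
  · intro x hx d
    have h8 : h i d < u i d := by
      have := hh i d
      simp only [hu]
      nlinarith
    have h9 : (h i d : ℝ) < u i d := by exact_mod_cast h8
    exact lt_of_le_of_lt (hx d) h9
  · intro x hx
    rw [h7 i x (fun d => (hx d).le)]
    funext d
    simp only [aff, hratio i d]

end Crest.Agent.BoxFlow
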