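import Crest.Agent.Lib_BoxFlow.Defs

/-!
S0170, package B11 (helper2): one-dimensional facts on the smooth step `stepFn` and the cut-off
`plateau`.
-/

set_option autoImplicit false

namespace Crest.Agent.BoxFlow

open Set Filter
open scoped ContDiff Topology

/-! ### the step -/

theorem stepFn_eq (s0 s1 : ℚ) (hs : s0 < s1) (t : ℝ) :
    stepFn s0 s1 t = Real.smoothTransition ((t - s0) / ((s1 : ℝ) - s0)) := by
  have h : (0 : ℝ) < (s1 : ℝ) - s0 := by
    have : (s0 : ℝ) < s1 := by exact_mod_cast hs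
    linarith
  unfold stepFn
  congr 1
  push_cast
  field_simp
  ring

theorem contDiff_stepFn (s0 s1 : ℚ) : ContDiff ℝ ∞ (stepFn s0 s1) := by
  unfold stepFn
  exact Real.smoothTransition.contDiff.comp (by fun_prop)

theorem stepFn_eq_zero {s0 s1 : ℚ} (hs : s0 < s1) {t : ℝ} (ht : t ≤ s0) : stepFn s0 s1 t = 0 := by
  have h : (0 : ℝ) < (s1 : ℝ) - s0 := by
    have : (s0 : ℝ) < s1 := by exact_mod_cast hs
    linarith
  rw [stepFn_eq s0 s1 hs]
  exact Real.smoothTransition.zero_of_nonpos (div_nonpos_of_nonpos_of_nonneg (by linarith) h.le)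

theorem stepFn_eq_one {s0 s1 : ℚ} (hs : s0 < s1) {t : ℝ} (ht : (s1 : ℝ) ≤ t) :
    stepFn s0 s1 t = 1 := by
  have h : (0 : ℝ) < (s1 : ℝ) - s0 := by
    have : (s0 : ℝ) < s1 := by exact_mod_cast hs
    linarith
  rw [stepFn_eq s0 s1 hs]
  exact Real.smoothTransition.one_of_one_le ((one_le_div h).mpr (by linarith))

theorem stepFn_nonneg (s0 s1 : ℚ) (t : ℝ) : 0 ≤ stepFn s0 s1 t :=
  Real.smoothTransition.nonneg _

theorem stepFn_le_one (s0 s1 : ℚ) (t : ℝ) : stepFn s0 s1 t ≤ 1 :=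
  Real.smoothTransition.le_one _

theorem stepFn_mem_Icc (s0 s1 : ℚ) (t : ℝ) : stepFn s0 s1 t ∈ Icc (0 : ℝ) 1 :=
  ⟨stepFn_nonneg s0 s1 t, stepFn_le_one s0 s1 t⟩

theorem deriv_stepFn_eq_zero {s0 s1 : ℚ} (hs : s0 < s1) {t : ℝ} (ht : t ∉ Ioo (s0 : ℝ) s1) :
    deriv (stepFn s0 s1) t = 0 := by
  rcases le_or_gt t s0 with h | h
  · have : IsLocalMin (stepFn s0 s1) t := by
      refine Eventually.of_forall fun x => ?_
      rw [stepFn_eq_zero hs h]
      exact stepFn_nonneg s0 s1 x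
    exact this.deriv_eq_zero
  · have h1 : (s1 : ℝ) ≤ t := by
      by_contra hcon
      exact ht ⟨h, not_le.mp hcon⟩
    have : IsLocalMax (stepFn s0 s1) t := by
      refine Eventually.of_forall fun x => ?_
      rw [stepFn_eq_one hs h1]
      exact stepFn_le_one s0 s1 x
    exact this.deriv_eq_zero

theorem hasDerivAt_stepFn (s0 s1 : ℚ) (t : ℝ) :
    HasDerivAt (stepFn s0 s1) (deriv (stepFn s0 s1) t) t :=
  ((contDiff_stepFn s0 s1).differentiable (by simp) t).hasDerivAt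

theorem contDiff_deriv_stepFn (s0 s1 : ℚ) : ContDiff ℝ ∞ (deriv (stepFn s0 s1)) :=
  ((contDiff_infty_iff_deriv).mp (contDiff_stepFn s0 s1)).2

theorem hasCompactSupport_deriv_stepFn {s0 s1 : ℚ} (hs : s0 < s1) :
    HasCompactSupport (deriv (stepFn s0 s1)) :=
  HasCompactSupport.intro (isCompact_Icc (a := (s0 : ℝ)) (b := (s1 : ℝ))) fun _ hx =>
    deriv_stepFn_eq_zero hs fun h => hx (Ioo_subset_Icc_self h)

/-! ### the plateau -/

theorem contDiff_plateau (lo hi m : ℚ) : ContDiff ℝ ∞ (plateau lo hi m) := by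
  unfold plateau
  exact (contDiff_stepFn _ _).sub (contDiff_stepFn _ _)

theorem plateau_eq_one {lo hi m : ℚ} (hm : 0 < m) {x : ℝ} (h1 : (lo : ℝ) - m / 4 ≤ x)
    (h2 : x ≤ (hi : ℝ) + m / 4) : plateau lo hi m x = 1 := by
  unfold plateau
  rw [stepFn_eq_one (by linarith) (by push_cast; linarith),
    stepFn_eq_zero (by linarith) (by push_cast; linarith), sub_zero]

theorem plateau_eq_zero {lo hi m : ℚ} (hm : 0 < m) (hlh : lo ≤ hi) {x : ℝ}
    (h : x ≤ (lo : ℝ) - 3 * m / 4 ∨ (hi : ℝ) + 3 * m / 4 ≤ x) : plateau lo hi m x = 0 := by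
  have hm' : (0 : ℝ) < m := by exact_mod_cast hm
  have hlh' : (lo : ℝ) ≤ hi := by exact_mod_cast hlh
  unfold plateau
  rcases h with h | h
  · rw [stepFn_eq_zero (by linarith) (by push_cast; linarith),
      stepFn_eq_zero (by linarith) (by push_cast; linarith), sub_zero]
  · rw [stepFn_eq_one (by linarith) (by push_cast; linarith),
      stepFn_eq_one (by linarith) (by push_cast; linarith), sub_self]

theorem plateau_eventuallyEq_one {lo hi m : ℚ} (hm : 0 < m) {x : ℝ}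
    (hx : x ∈ Icc (lo : ℝ) hi) : plateau lo hi m =ᶠ[𝓝 x] fun _ => 1 := by
  have hm' : (0 : ℝ) < m := by exact_mod_cast hm
  filter_upwards [Ioo_mem_nhds (show (lo : ℝ) - m / 4 < x by linarith [hx.1])
    (show x < (hi : ℝ) + m / 4 by linarith [hx.2])] with y hy
  exact plateau_eq_one hm hy.1.le hy.2.le

theorem plateau_eventuallyEq_zero {lo hi m : ℚ} (hm : 0 < m) (hlh : lo ≤ hi) {x : ℝ}
    (hx : x ≤ (lo : ℝ) - m ∨ (hi : ℝ) + m ≤ x) : plateau lo hi m =ᶠ[𝓝 x] fun _ => 0 := by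
  have hm' : (0 : ℝ) < m := by exact_mod_cast hm
  rcases hx with hx | hx
  · filter_upwards [Iio_mem_nhds (show x < (lo : ℝ) - 3 * m / 4 by linarith)] with y hy
    exact plateau_eq_zero hm hlh (Or.inl (mem_Iio.mp hy).le)
  · filter_upwards [Ioi_mem_nhds (show (hi : ℝ) + 3 * m / 4 < x by linarith)] with y hy
    exact plateau_eq_zero hm hlh (Or.inr (mem_Ioi.mp hy).le)

theorem deriv_plateau_eq_zero_of_mem {lo hi m : ℚ} (hm : 0 < m) {x : ℝ}
    (hx : x ∈ Icc (lo : ℝ) hi) : deriv (plateau lo hi m) x = 0 := by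
  rw [(plateau_eventuallyEq_one hm hx).deriv_eq]
  simp

theorem deriv_plateau_eq_zero_of_far {lo hi m : ℚ} (hm : 0 < m) (hlh : lo ≤ hi) {x : ℝ}
    (hx : x ≤ (lo : ℝ) - m ∨ (hi : ℝ) + m ≤ x) : deriv (plateau lo hi m) x = 0 := by
  rw [(plateau_eventuallyEq_zero hm hlh hx).deriv_eq]
  simp

theorem hasCompactSupport_plateau {lo hi m : ℚ} (hm : 0 < m) (hlh : lo ≤ hi) :
    HasCompactSupport (plateau lo hi m) :=
  HasCompactSupport.intro
    (isCompact_Icc (a := (lo : ℝ) - 3 * m / 4) (b := (hi : ℝ) + 3 * m / 4)) fun x hx => by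
    apply plateau_eq_zero hm hlh
    by_contra hcon
    push Not at hcon
    exact hx ⟨hcon.1.le, hcon.2.le⟩

theorem exists_plateau_bound {lo hi m : ℚ} (hm : 0 < m) (hlh : lo ≤ hi) :
    ∃ X : ℕ, ∀ x : ℝ, (X : ℝ) < |x| → plateau lo hi m x = 0 := by
  obtain ⟨X, hX⟩ := exists_nat_ge (max |(lo : ℝ) - 3 * m / 4| |(hi : ℝ) + 3 * m / 4|)
  refine ⟨X, fun x hx => plateau_eq_zero hm hlh ?_⟩
  have h1 : |(lo : ℝ) - 3 * m / 4| < |x| := lt_of_le_of_lt ((le_max_left _ _).trans hX) hx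
  have h2 : |(hi : ℝ) + 3 * m / 4| < |x| := lt_of_le_of_lt ((le_max_right _ _).trans hX) hx
  rcases le_total 0 x with h0 | h0
  · right
    rw [abs_of_nonneg h0] at h2
    exact (le_abs_self _).trans h2.le
  · left
    rw [abs_of_nonpos h0] at h1
    have := neg_abs_le ((lo : ℝ) - 3 * m / 4)
    linarith

end Crest.Agent.BoxFlow
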