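import Mathlib
import Crest.Agent.Lib_BoxFlow.QPrim

/-!
Package B3: finite differences approximate derivatives; rational approximations of `exp (-y)` and of
`Real.smoothTransition`.
-/

set_option autoImplicit false

namespace Crest.Agent.BoxFlow

open scoped ContDiff Nat
open fwdDiff

/-! ### (a) finite differences -/

lemma contDiff_fwdDiff {g : ℝ → ℝ} (hg : ContDiff ℝ ∞ g) (ε : ℝ) : ContDiff ℝ ∞ (Δ_[ε] g) := by
  unfold fwdDiff
  exact (hg.comp (contDiff_id.add contDiff_const)).sub hg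

lemma contDiff_iteratedDeriv' {g : ℝ → ℝ} (hg : ContDiff ℝ ∞ g) (k : ℕ) :
    ContDiff ℝ ∞ (iteratedDeriv k g) := by
  rw [iteratedDeriv_eq_iterate]; exact hg.iterate_deriv k

lemma iteratedDeriv_fwdDiff {g : ℝ → ℝ} (hg : ContDiff ℝ ∞ g) (ε : ℝ) (k : ℕ) (x : ℝ) :
    iteratedDeriv k (Δ_[ε] g) x = iteratedDeriv k g (x + ε) - iteratedDeriv k g x := by
  have e : Δ_[ε] g = (fun z => g (z + ε)) - g := rfl
  have c1 : ContDiffAt ℝ k (fun z => g (z + ε)) x :=
    ((hg.comp (contDiff_id.add contDiff_const)).of_le (by exact_mod_cast le_top)).contDiffAt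
  have c2 : ContDiffAt ℝ k g x := (hg.of_le (by exact_mod_cast le_top)).contDiffAt
  rw [e, iteratedDeriv_sub c1 c2, iteratedDeriv_comp_add_const]

lemma fwdDiff_iter_eq_deriv (ε : ℝ) (hε : 0 < ε) (k : ℕ) : ∀ (g : ℝ → ℝ), ContDiff ℝ ∞ g →
    ∀ x : ℝ, ∃ ξ ∈ Set.Icc x (x + k * ε), (fwdDiff ε)^[k] g x = ε ^ k * iteratedDeriv k g ξ := by
  induction k with
  | zero => intro g _ x; exact ⟨x, by simp, by simp⟩
  | succ k ih =>
    intro g hg x
    obtain ⟨ξ, hξ, h⟩ := ih (Δ_[ε] g) (contDiff_fwdDiff hg ε) x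
    have hs := contDiff_iteratedDeriv' hg k
    obtain ⟨c, hc, h2⟩ := exists_deriv_eq_slope (iteratedDeriv k g) (a := ξ) (b := ξ + ε)
      (by linarith) hs.continuous.continuousOn
      (hs.differentiable (by simp)).differentiableOn
    refine ⟨c, ⟨by linarith [hξ.1, hc.1], ?_⟩, ?_⟩
    · push_cast; linarith [hξ.2, hc.2]
    · rw [Function.iterate_succ_apply, h, iteratedDeriv_fwdDiff hg, iteratedDeriv_succ, h2,
        add_sub_cancel_left, pow_succ, mul_assoc, mul_div_cancel₀ _ hε.ne']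

/-- **B3 (a)**: the finite difference quotient approximates the derivative. -/
theorem fd_error (g : ℝ → ℝ) (hg : ContDiff ℝ ∞ g) (k : ℕ) (C : ℝ)
    (hC : ∀ x, |iteratedDeriv (k + 1) g x| ≤ C) (ε : ℝ) (hε : 0 < ε) (x : ℝ) :
    |(∑ i ∈ Finset.range (k + 1), (-1 : ℝ) ^ (k - i) * (k.choose i : ℝ) * g (x + i * ε)) / ε ^ k
      - iteratedDeriv k g x| ≤ k * ε * C := by
  obtain ⟨ξ, hξ, h⟩ := fwdDiff_iter_eq_deriv ε hε k g hg x
  rw [fwdDiff_iter_eq_sum_shift] at h
  have e : ∑ i ∈ Finset.range (k + 1), (-1 : ℝ) ^ (k - i) * (k.choose i : ℝ) * g (x + i * ε)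
      = ∑ i ∈ Finset.range (k + 1), ((-1 : ℤ) ^ (k - i) * (k.choose i : ℤ)) • g (x + i • ε) := by
    apply Finset.sum_congr rfl
    intro i _
    simp [zsmul_eq_mul]
  rw [e, h, mul_div_cancel_left₀ _ (pow_ne_zero _ hε.ne')]
  have hs := contDiff_iteratedDeriv' hg k
  have hb : ∀ y ∈ Set.Icc x (x + k * ε), ‖deriv (iteratedDeriv k g) y‖ ≤ C := by
    intro y _
    rw [← iteratedDeriv_succ]
    exact hC y
  have h3 := (convex_Icc x (x + k * ε)).norm_image_sub_le_of_norm_deriv_le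
    (fun y _ => (hs.differentiable (by simp)).differentiableAt) hb
    (Set.left_mem_Icc.mpr (by nlinarith [hξ.1, hξ.2])) hξ
  rw [Real.norm_eq_abs, Real.norm_eq_abs] at h3
  have hC0 : 0 ≤ C := le_trans (abs_nonneg _) (hC x)
  calc _ ≤ C * |ξ - x| := h3
    _ ≤ C * (k * ε) := by
        gcongr
        rw [abs_of_nonneg (by linarith [hξ.1])]
        linarith [hξ.2]
    _ = k * ε * C := by ring

/-! ### (b) rational approximation of `exp (-y)` -/

/-- the number of factors used by `expNegQ` -/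
def expM (y : ℚ) (n : ℕ) : ℕ := (y.num.natAbs ^ 2 + 1) * (2 * (n + 1))

/-- rational approximation of `exp (-y)`, `y ≥ 0`, up to `1 / (n + 1)` -/
def expNegQ (y : ℚ) (n : ℕ) : ℚ := ((1 + y / (expM y n : ℚ)) ^ (expM y n))⁻¹

lemma expNegQ_nonneg (y : ℚ) (hy : 0 ≤ y) (n : ℕ) : 0 ≤ expNegQ y n := by
  unfold expNegQ
  positivity

lemma rat_le_natAbs (y : ℚ) (hy : 0 ≤ y) : y ≤ (y.num.natAbs : ℚ) := by
  have h1 : y = (y.num : ℚ) / (y.den : ℚ) := (Rat.num_div_den y).symm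
  have h2 : (0 : ℤ) ≤ y.num := Rat.num_nonneg.mpr hy
  have h3 : ((y.num.natAbs : ℕ) : ℚ) = (y.num : ℚ) := by
    have : ((y.num.natAbs : ℕ) : ℤ) = y.num := Int.natAbs_of_nonneg h2
    calc ((y.num.natAbs : ℕ) : ℚ) = (((y.num.natAbs : ℕ) : ℤ) : ℚ) := (Int.cast_natCast _).symm
      _ = (y.num : ℚ) := by rw [this]
  have h4 : (1 : ℚ) ≤ (y.den : ℚ) := by exact_mod_cast y.den_pos
  have h5 : (0 : ℚ) ≤ (y.num : ℚ) := by exact_mod_cast h2
  rw [h3]
  conv_lhs => rw [h1]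
  exact div_le_self h5 h4

/-- real version of the estimate -/
lemma exp_neg_approx (y : ℝ) (hy : 0 ≤ y) (m : ℕ) (hm : 0 < m) (δ : ℝ) (hδ : y ^ 2 / m ≤ δ)
    (hδ1 : δ ≤ 1) :
    |Real.exp (-y) - ((1 + y / m) ^ m)⁻¹| ≤ δ := by
  have hm' : (0 : ℝ) < m := by exact_mod_cast hm
  set u : ℝ := y / m with hu
  have hu0 : 0 ≤ u := by positivity
  have hum : u * m = y := by rw [hu]; field_simp
  have hP : (0 : ℝ) < (1 + u) ^ m := by positivity
  have hP1 : (1 : ℝ) ≤ (1 + u) ^ m := one_le_pow₀ (by linarith)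
  -- upper bound
  have h1 : (1 + u) ^ m ≤ Real.exp y := by
    have : 1 + u ≤ Real.exp u := by linarith [Real.add_one_le_exp u]
    calc (1 + u) ^ m ≤ Real.exp u ^ m := by gcongr
      _ = Real.exp y := by rw [← Real.exp_nat_mul, mul_comm, hum]
  have h2 : Real.exp (-y) ≤ ((1 + u) ^ m)⁻¹ := by
    rw [Real.exp_neg]
    exact inv_anti₀ hP h1
  -- lower bound
  have hmu : (m : ℝ) * u ^ 2 = y ^ 2 / m := by rw [hu]; field_simp
  have hu2 : u ^ 2 ≤ 1 := by
    have : (1 : ℝ) ≤ m := by exact_mod_cast hm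
    have h0 : 0 ≤ u ^ 2 := by positivity
    nlinarith
  have h3 : 1 - u ^ 2 ≤ (1 + u) * Real.exp (-u) := by
    have := Real.add_one_le_exp (-u)
    nlinarith
  have h4 : 1 - δ ≤ (1 + u) ^ m * Real.exp (-y) := by
    have hb := one_add_mul_le_pow (a := -u ^ 2) (by linarith) m
    calc 1 - δ ≤ 1 + (m : ℝ) * (-u ^ 2) := by linarith
      _ ≤ (1 + -u ^ 2) ^ m := hb
      _ ≤ ((1 + u) * Real.exp (-u)) ^ m := by
          apply pow_le_pow_left₀ (by linarith)
          linarith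
      _ = (1 + u) ^ m * Real.exp (-y) := by
          rw [mul_pow, ← Real.exp_nat_mul]
          congr 2
          rw [← hum]; ring
  have h5 : ((1 + u) ^ m)⁻¹ - Real.exp (-y) ≤ δ := by
    have hδ0 : 0 ≤ δ := le_trans (by positivity) hδ
    have h6 : ((1 + u) ^ m)⁻¹ ≤ 1 := inv_le_one_of_one_le₀ hP1
    have h7 : ((1 + u) ^ m)⁻¹ * (1 - δ) ≤ Real.exp (-y) := by
      calc ((1 + u) ^ m)⁻¹ * (1 - δ) ≤ ((1 + u) ^ m)⁻¹ * ((1 + u) ^ m * Real.exp (-y)) := by gcongr
        _ = Real.exp (-y) := by rw [← mul_assoc, inv_mul_cancel₀ hP.ne', one_mul]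
    nlinarith
  rw [abs_le]
  constructor <;> linarith

/-- **B3 (b)** -/
theorem expNegQ_spec (y : ℚ) (hy : 0 ≤ y) (n : ℕ) :
    |Real.exp (-(y : ℝ)) - (expNegQ y n : ℝ)| ≤ 1 / ((n : ℝ) + 1) := by
  have hm : 0 < expM y n := by unfold expM; positivity
  have hyR : (0 : ℝ) ≤ (y : ℝ) := by exact_mod_cast hy
  have hn : (0 : ℝ) < (n : ℝ) + 1 := by positivity
  have hle : (y : ℝ) ≤ (y.num.natAbs : ℝ) := by exact_mod_cast rat_le_natAbs y hy
  have hδ : (y : ℝ) ^ 2 / (expM y n : ℝ) ≤ 1 / ((n : ℝ) + 1) := by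
    have hmR : (0 : ℝ) < (expM y n : ℝ) := by exact_mod_cast hm
    rw [div_le_div_iff₀ hmR hn]
    unfold expM
    push_cast
    have : (y : ℝ) ^ 2 ≤ (y.num.natAbs : ℝ) ^ 2 := by gcongr
    nlinarith
  have h := exp_neg_approx (y : ℝ) hyR (expM y n) hm _ hδ
    (by rw [div_le_one hn]; linarith [(Nat.cast_nonneg n : (0 : ℝ) ≤ n)])
  unfold expNegQ
  push_cast
  exact h

/-! ### (c) rational approximation of `smoothTransition` -/

/-- rational approximation of `Real.smoothTransition q` up to `1 / (n + 1)` -/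
def stQ (q : ℚ) (n : ℕ) : ℚ :=
  if q ≤ 0 then 0 else if 1 ≤ q then 1 else
    if 0 ≤ 1 / q - 1 / (1 - q) then expNegQ (1 / q - 1 / (1 - q)) n / (1 + expNegQ (1 / q - 1 / (1 - q)) n)
    else 1 / (1 + expNegQ (-(1 / q - 1 / (1 - q))) n)

lemma lip1 (a b : ℝ) (ha : 0 ≤ a) (hb : 0 ≤ b) : |a / (1 + a) - b / (1 + b)| ≤ |a - b| := by
  have e : a / (1 + a) - b / (1 + b) = (a - b) / ((1 + a) * (1 + b)) := by
    field_simp; ring
  rw [e, abs_div]
  apply div_le_self (abs_nonneg _)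
  rw [abs_of_nonneg (by positivity)]
  nlinarith

lemma lip2 (a b : ℝ) (ha : 0 ≤ a) (hb : 0 ≤ b) : |1 / (1 + a) - 1 / (1 + b)| ≤ |a - b| := by
  have e : 1 / (1 + a) - 1 / (1 + b) = -(a - b) / ((1 + a) * (1 + b)) := by
    field_simp; ring
  rw [e, abs_div, abs_neg]
  apply div_le_self (abs_nonneg _)
  rw [abs_of_nonneg (by positivity)]
  nlinarith

lemma smoothTransition_eq (x : ℝ) (h0 : 0 < x) (h1 : x < 1) :
    Real.smoothTransition x = 1 / (1 + Real.exp (1 / x - 1 / (1 - x))) := by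
  have e1 : expNegInvGlue x = Real.exp (-x⁻¹) := by simp [expNegInvGlue, h0.not_ge]
  have e2 : expNegInvGlue (1 - x) = Real.exp (-(1 - x)⁻¹) := by
    simp [expNegInvGlue, h1.not_ge]
  rw [Real.smoothTransition, e1, e2]
  have e3 : Real.exp (-(1 - x)⁻¹) = Real.exp (-x⁻¹) * Real.exp (1 / x - 1 / (1 - x)) := by
    rw [← Real.exp_add]; congr 1; simp only [one_div]; ring
  rw [e3]
  have := Real.exp_pos (-x⁻¹)
  have := Real.exp_pos (1 / x - 1 / (1 - x))
  field_simp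

/-- **B3 (c)** -/
theorem stQ_spec (q : ℚ) (n : ℕ) :
    |Real.smoothTransition (q : ℝ) - (stQ q n : ℝ)| ≤ 1 / ((n : ℝ) + 1) := by
  have hn : (0 : ℝ) ≤ 1 / ((n : ℝ) + 1) := by positivity
  unfold stQ
  split_ifs with h0 h1 hy
  · rw [Real.smoothTransition.zero_of_nonpos (by exact_mod_cast h0)]; simpa using hn
  · rw [Real.smoothTransition.one_of_one_le (by exact_mod_cast h1)]; simpa using hn
  · push Not at h0 h1
    have h0' : (0 : ℝ) < (q : ℝ) := by exact_mod_cast h0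
    have h1' : (q : ℝ) < 1 := by exact_mod_cast h1
    set y : ℚ := 1 / q - 1 / (1 - q) with hydef
    have hyR : ((y : ℚ) : ℝ) = 1 / (q : ℝ) - 1 / (1 - (q : ℝ)) := by rw [hydef]; push_cast; ring
    rw [smoothTransition_eq _ h0' h1', ← hyR]
    have e : 1 / (1 + Real.exp (y : ℝ)) = Real.exp (-(y : ℝ)) / (1 + Real.exp (-(y : ℝ))) := by
      rw [Real.exp_neg]
      have := Real.exp_pos (y : ℝ)
      field_simp
      ring
    rw [e]
    push_cast
    exact le_trans (lip1 _ _ (Real.exp_pos _).le (by exact_mod_cast expNegQ_nonneg y hy n))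
      (expNegQ_spec y hy n)
  · push Not at h0 h1 hy
    have h0' : (0 : ℝ) < (q : ℝ) := by exact_mod_cast h0
    have h1' : (q : ℝ) < 1 := by exact_mod_cast h1
    set y : ℚ := 1 / q - 1 / (1 - q) with hydef
    have hyR : ((y : ℚ) : ℝ) = 1 / (q : ℝ) - 1 / (1 - (q : ℝ)) := by rw [hydef]; push_cast; ring
    rw [smoothTransition_eq _ h0' h1', ← hyR]
    have hy' : 0 ≤ -y := by linarith
    have e : Real.exp (y : ℝ) = Real.exp (-((-y : ℚ) : ℝ)) := by push_cast; rw [neg_neg]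
    rw [e]
    push_cast
    have h := le_trans (lip2 _ _ (Real.exp_pos (-((-y : ℚ) : ℝ))).le
      (by exact_mod_cast expNegQ_nonneg (-y) hy' n)) (expNegQ_spec (-y) hy' n)
    push_cast at h
    exact h

/-! ### primitive recursiveness -/

section prim

variable {α : Type*} [Primcodable α]

theorem pr_expM {y : α → ℚ} {n : α → ℕ} (hy : Primrec y) (hn : Primrec n) :
    Primrec fun a => expM (y a) (n a) := by
  unfold expM
  exact Primrec.nat_mul.comp
    (Primrec.succ.comp (primrec_npow.comp (primrec_numNatAbs.comp hy) (Primrec.const 2)))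
    (Primrec.nat_mul.comp (Primrec.const 2) (Primrec.succ.comp hn))

theorem pr_expNegQ {y : α → ℚ} {n : α → ℕ} (hy : Primrec y) (hn : Primrec n) :
    Primrec fun a => expNegQ (y a) (n a) := by
  unfold expNegQ
  exact pr_inv (pr_pow (pr_add (Primrec.const 1) (pr_div hy (pr_cast (pr_expM hy hn))))
    (pr_expM hy hn))

theorem pr_stQ {q : α → ℚ} {n : α → ℕ} (hq : Primrec q) (hn : Primrec n) :
    Primrec fun a => stQ (q a) (n a) := by
  unfold stQ
  have hy : Primrec fun a => 1 / q a - 1 / (1 - q a) :=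
    pr_sub (pr_div (Primrec.const 1) hq) (pr_div (Primrec.const 1) (pr_sub (Primrec.const 1) hq))
  exact Primrec.ite (pr_le hq (Primrec.const 0)) (Primrec.const 0)
    (Primrec.ite (pr_le (Primrec.const 1) hq) (Primrec.const 1)
      (Primrec.ite (pr_le (Primrec.const 0) hy)
        (pr_div (pr_expNegQ hy hn) (pr_add (Primrec.const 1) (pr_expNegQ hy hn)))
        (pr_div (Primrec.const 1) (pr_add (Primrec.const 1) (pr_expNegQ (pr_neg hy) hn)))))

theorem primrec_stQ : Primrec₂ stQ := pr_stQ Primrec.fst Primrec.snd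

end prim

end Crest.Agent.BoxFlow
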