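import Mathlib

/-!
Explicit bounds for all derivatives of `Real.smoothTransition` (package B2).
-/

set_option autoImplicit false

namespace Crest.Agent.BoxFlow

open Polynomial
open scoped ContDiff Nat

/-- `x ↦ x⁻ᵐ exp(-1/x)` (zero for `x ≤ 0`) -/
noncomputable def fm (m : ℕ) (x : ℝ) : ℝ := (x⁻¹) ^ m * expNegInvGlue x

lemma fm_eq (m : ℕ) : fm m = fun x => (X ^ m : ℝ[X]).eval x⁻¹ * expNegInvGlue x := by
  funext x; simp [fm]

lemma fm_zero : fm 0 = expNegInvGlue := by funext x; simp [fm]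

lemma contDiff_fm (m : ℕ) : ContDiff ℝ ∞ (fm m) := by
  rw [fm_eq]; exact expNegInvGlue.contDiff_polynomial_eval_inv_mul _

lemma hasDerivAt_fm (m : ℕ) (x : ℝ) :
    HasDerivAt (fm m) (fm (m + 2) x - m * fm (m + 1) x) x := by
  have h := expNegInvGlue.hasDerivAt_polynomial_eval_inv_mul (X ^ m : ℝ[X]) x
  rw [← fm_eq] at h
  convert h using 1
  simp only [fm, derivative_X_pow, eval_mul, eval_pow, eval_X, eval_sub, map_natCast,
    eval_natCast]
  cases m with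
  | zero => simp
  | succ m => simp only [Nat.add_sub_cancel]; push_cast; ring

lemma abs_fm_le (m : ℕ) (x : ℝ) : |fm m x| ≤ (m ! : ℝ) := by
  rcases le_or_gt x 0 with hx | hx
  · simp [fm, expNegInvGlue.zero_of_nonpos hx]
  · have hy : 0 < x⁻¹ := inv_pos.mpr hx
    have h1 := Real.pow_div_factorial_le_exp _ hy.le m
    have hf : (0 : ℝ) < (m ! : ℝ) := by positivity
    rw [div_le_iff₀ hf] at h1
    have h2 : expNegInvGlue x = Real.exp (-x⁻¹) := by simp [expNegInvGlue, hx.not_ge]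
    rw [fm, h2, abs_of_nonneg (by positivity), Real.exp_neg]
    rw [← div_eq_mul_inv, div_le_iff₀ (Real.exp_pos _)]
    linarith

lemma iter_fm (k : ℕ) : ∀ (m : ℕ) (x : ℝ),
    |iteratedDeriv k (fm m) x| ≤ 2 ^ k * ((m + 2 * k)! : ℝ) := by
  induction k with
  | zero => intro m x; simpa using abs_fm_le m x
  | succ k ih =>
    intro m x
    have hd : deriv (fm m) = fm (m + 2) - (fun x => (m : ℝ) * fm (m + 1) x) :=
      funext fun x => (hasDerivAt_fm m x).deriv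
    have c1 : ContDiffAt ℝ k (fm (m + 2)) x :=
      ((contDiff_fm (m + 2)).of_le (by exact_mod_cast le_top)).contDiffAt
    have c2 : ContDiffAt ℝ k (fun x => (m : ℝ) * fm (m + 1) x) x :=
      (contDiff_const.mul ((contDiff_fm (m + 1)).of_le (by exact_mod_cast le_top))).contDiffAt
    rw [iteratedDeriv_succ', hd, iteratedDeriv_sub c1 c2, iteratedDeriv_const_mul_field]
    have h1 := ih (m + 2) x
    have h2 := ih (m + 1) x
    have e1 : m + 2 + 2 * k = m + 2 * (k + 1) := by ring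
    have e2 : m + 2 * (k + 1) = (m + 1 + 2 * k) + 1 := by ring
    rw [e1] at h1
    have h3 : (m : ℝ) * ((m + 1 + 2 * k)! : ℝ) ≤ ((m + 2 * (k + 1))! : ℝ) := by
      rw [e2, Nat.factorial_succ]
      push_cast
      have : (0 : ℝ) ≤ ((m + 1 + 2 * k)! : ℝ) := by positivity
      nlinarith
    calc |iteratedDeriv k (fm (m + 2)) x - m * iteratedDeriv k (fm (m + 1)) x|
        ≤ |iteratedDeriv k (fm (m + 2)) x| + |(m : ℝ) * iteratedDeriv k (fm (m + 1)) x| :=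
          abs_sub _ _
      _ = |iteratedDeriv k (fm (m + 2)) x| + m * |iteratedDeriv k (fm (m + 1)) x| := by
          rw [abs_mul, Nat.abs_cast]
      _ ≤ 2 ^ k * ((m + 2 * (k + 1))! : ℝ) + m * (2 ^ k * ((m + 1 + 2 * k)! : ℝ)) := by
          gcongr
      _ = 2 ^ k * ((m + 2 * (k + 1))! : ℝ) + 2 ^ k * (m * ((m + 1 + 2 * k)! : ℝ)) := by ring
      _ ≤ 2 ^ k * ((m + 2 * (k + 1))! : ℝ) + 2 ^ k * ((m + 2 * (k + 1))! : ℝ) := by gcongr
      _ = 2 ^ (k + 1) * ((m + 2 * (k + 1))! : ℝ) := by ring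

lemma two_mul_factorial_le (k : ℕ) : (((2 * k)! : ℕ) : ℝ) ≤ 4 ^ k * ((k ! : ℕ) : ℝ) ^ 2 := by
  have h1 : (2 * k).choose k * k ! * (2 * k - k)! = (2 * k)! :=
    Nat.choose_mul_factorial_mul_factorial (by omega)
  have h2 : 2 * k - k = k := by omega
  rw [h2] at h1
  have h3 : (2 * k).choose k ≤ 4 ^ k := by
    have := Nat.centralBinom_le_four_pow k
    rwa [Nat.centralBinom_eq_two_mul_choose] at this
  have h4 : (2 * k)! ≤ 4 ^ k * k ! * k ! := by
    rw [← h1]; gcongr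
  calc (((2 * k)! : ℕ) : ℝ) ≤ ((4 ^ k * k ! * k ! : ℕ) : ℝ) := by exact_mod_cast h4
    _ = 4 ^ k * ((k ! : ℕ) : ℝ) ^ 2 := by push_cast; ring

/-- bound for the derivatives of `expNegInvGlue` -/
lemma iter_psi (k : ℕ) (x : ℝ) :
    |iteratedDeriv k expNegInvGlue x| ≤ 1 * 8 ^ k * ((k ! : ℕ) : ℝ) ^ 2 := by
  have h := iter_fm k 0 x
  rw [fm_zero, zero_add] at h
  have h2 := two_mul_factorial_le k
  calc |iteratedDeriv k expNegInvGlue x| ≤ 2 ^ k * (((2 * k)! : ℕ) : ℝ) := h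
    _ ≤ 2 ^ k * (4 ^ k * ((k ! : ℕ) : ℝ) ^ 2) := by gcongr
    _ = 1 * 8 ^ k * ((k ! : ℕ) : ℝ) ^ 2 := by
        rw [show (8 : ℝ) = 2 * 4 by norm_num, mul_pow]; ring

/-! ### Leibniz estimates -/

lemma choose_fact_le (k i : ℕ) (hi : i ≤ k) :
    ((k.choose i : ℕ) : ℝ) * ((i ! : ℕ) : ℝ) ^ 2 * (((k - i)! : ℕ) : ℝ) ^ 2 ≤ ((k ! : ℕ) : ℝ) ^ 2 := by
  have h1 : k.choose i * i ! * (k - i)! = k ! := Nat.choose_mul_factorial_mul_factorial hi
  have h2 : i ! * (k - i)! ≤ k ! :=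
    Nat.le_of_dvd (Nat.factorial_pos k) (Nat.factorial_mul_factorial_dvd_factorial hi)
  have h1' : ((k.choose i : ℕ) : ℝ) * ((i ! : ℕ) : ℝ) * (((k - i)! : ℕ) : ℝ) = ((k ! : ℕ) : ℝ) := by
    exact_mod_cast h1
  have h2' : ((i ! : ℕ) : ℝ) * (((k - i)! : ℕ) : ℝ) ≤ ((k ! : ℕ) : ℝ) := by exact_mod_cast h2
  calc ((k.choose i : ℕ) : ℝ) * ((i ! : ℕ) : ℝ) ^ 2 * (((k - i)! : ℕ) : ℝ) ^ 2
      = (((k.choose i : ℕ) : ℝ) * ((i ! : ℕ) : ℝ) * (((k - i)! : ℕ) : ℝ))
          * (((i ! : ℕ) : ℝ) * (((k - i)! : ℕ) : ℝ)) := by ring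
    _ = ((k ! : ℕ) : ℝ) * (((i ! : ℕ) : ℝ) * (((k - i)! : ℕ) : ℝ)) := by rw [h1']
    _ ≤ ((k ! : ℕ) : ℝ) * ((k ! : ℕ) : ℝ) := by gcongr
    _ = ((k ! : ℕ) : ℝ) ^ 2 := by ring

lemma term_bound (k i : ℕ) (hi : i ≤ k) (α β c1 c2 : ℝ) (h1 : 0 ≤ c1) (h2 : 0 ≤ c2)
    (hα : |α| ≤ c1 * 8 ^ i * ((i ! : ℕ) : ℝ) ^ 2)
    (hβ : |β| ≤ c2 * 136 ^ (k - i) * (((k - i)! : ℕ) : ℝ) ^ 2) :
    |((k.choose i : ℕ) : ℝ) * α * β| ≤ c1 * c2 * ((k ! : ℕ) : ℝ) ^ 2 * 136 ^ k * (1 / 17) ^ i := by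
  have e : (136 : ℝ) ^ k * (1 / 17) ^ i = 8 ^ i * 136 ^ (k - i) := by
    have : (136 : ℝ) ^ k = 136 ^ i * 136 ^ (k - i) := by rw [← pow_add]; congr 1; omega
    rw [this, show (136 : ℝ) = 8 * 17 by norm_num, mul_pow 8 17 i]
    have h17 : (17 : ℝ) ^ i * (1 / 17) ^ i = 1 := by rw [← mul_pow]; norm_num
    calc (8 : ℝ) ^ i * 17 ^ i * (8 * 17) ^ (k - i) * (1 / 17) ^ i
        = 8 ^ i * (8 * 17) ^ (k - i) * (17 ^ i * (1 / 17) ^ i) := by ring
      _ = 8 ^ i * (8 * 17) ^ (k - i) := by rw [h17, mul_one]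
  rw [abs_mul, abs_mul, abs_of_nonneg (Nat.cast_nonneg _)]
  calc ((k.choose i : ℕ) : ℝ) * |α| * |β|
      ≤ ((k.choose i : ℕ) : ℝ) * (c1 * 8 ^ i * ((i ! : ℕ) : ℝ) ^ 2)
          * (c2 * 136 ^ (k - i) * (((k - i)! : ℕ) : ℝ) ^ 2) := by gcongr
    _ = c1 * c2 * (8 ^ i * 136 ^ (k - i))
          * (((k.choose i : ℕ) : ℝ) * ((i ! : ℕ) : ℝ) ^ 2 * (((k - i)! : ℕ) : ℝ) ^ 2) := by ring
    _ ≤ c1 * c2 * (8 ^ i * 136 ^ (k - i)) * ((k ! : ℕ) : ℝ) ^ 2 := by
        gcongr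
        exact choose_fact_le k i hi
    _ = c1 * c2 * ((k ! : ℕ) : ℝ) ^ 2 * 136 ^ k * (1 / 17) ^ i := by rw [← e]; ring

lemma geom17 (k : ℕ) : ∑ i ∈ Finset.range k, ((1 : ℝ) / 17) ^ i = (1 - (1 / 17) ^ k) * (17 / 16) := by
  induction k with
  | zero => simp
  | succ k ih => rw [Finset.sum_range_succ, ih]; ring

lemma geom17_le (k : ℕ) : ∑ i ∈ Finset.range k, ((1 : ℝ) / 17) ^ i ≤ 17 / 16 := by
  rw [geom17]
  have : (0 : ℝ) ≤ (1 / 17) ^ k := by positivity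
  nlinarith

lemma geom17_le' (k : ℕ) : ∑ i ∈ Finset.range k, ((1 : ℝ) / 17) ^ (i + 1) ≤ 1 / 16 := by
  have : ∑ i ∈ Finset.range k, ((1 : ℝ) / 17) ^ (i + 1)
      = (1 / 17) * ∑ i ∈ Finset.range k, ((1 : ℝ) / 17) ^ i := by
    rw [Finset.mul_sum]; exact Finset.sum_congr rfl fun i _ => by ring
  rw [this]
  have := geom17_le k
  linarith

/-! ### the denominator -/

/-- the denominator of `smoothTransition` -/
noncomputable def uden (x : ℝ) : ℝ := expNegInvGlue x + expNegInvGlue (1 - x)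

lemma contDiff_uden : ContDiff ℝ ∞ uden :=
  expNegInvGlue.contDiff.add (expNegInvGlue.contDiff.comp (contDiff_const.sub contDiff_id))

lemma uden_ge (x : ℝ) : 1 / 8 ≤ uden x := by
  have h0 : (1 : ℝ) / 8 ≤ expNegInvGlue (1 / 2) := by
    have : expNegInvGlue (1 / 2) = Real.exp (-2) := by
      simp [expNegInvGlue]
    rw [this, Real.exp_neg, one_div]
    apply inv_anti₀ (Real.exp_pos _)
    have h1 : Real.exp 2 = Real.exp 1 ^ 2 := by rw [← Real.exp_nat_mul]; norm_num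
    have h2 := Real.exp_one_lt_d9
    have h3 : 0 < Real.exp 1 := Real.exp_pos _
    rw [h1]
    nlinarith
  rcases le_total (1 / 2) x with h | h
  · have := expNegInvGlue.monotone h
    have h2 := expNegInvGlue.nonneg (1 - x)
    simp only [uden]; linarith
  · have := expNegInvGlue.monotone (show (1 : ℝ) / 2 ≤ 1 - x by linarith)
    have h2 := expNegInvGlue.nonneg x
    simp only [uden]; linarith

lemma iter_uden (k : ℕ) (x : ℝ) :
    |iteratedDeriv k uden x| ≤ 2 * 8 ^ k * ((k ! : ℕ) : ℝ) ^ 2 := by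
  have c1 : ContDiffAt ℝ k expNegInvGlue x := expNegInvGlue.contDiff.contDiffAt
  have c2 : ContDiffAt ℝ k (fun x => expNegInvGlue (1 - x)) x :=
    (expNegInvGlue.contDiff.comp (contDiff_const.sub contDiff_id)).contDiffAt
  have e : uden = expNegInvGlue + fun x => expNegInvGlue (1 - x) := rfl
  rw [e, iteratedDeriv_add c1 c2, iteratedDeriv_comp_const_sub]
  have h1 := iter_psi k x
  have h2 := iter_psi k (1 - x)
  have h3 : |(-1 : ℝ) ^ k • iteratedDeriv k expNegInvGlue (1 - x)|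
      = |iteratedDeriv k expNegInvGlue (1 - x)| := by
    rw [smul_eq_mul, abs_mul, abs_pow, abs_neg, abs_one, one_pow, one_mul]
  calc _ ≤ |iteratedDeriv k expNegInvGlue x|
        + |(-1 : ℝ) ^ k • iteratedDeriv k expNegInvGlue (1 - x)| := abs_add_le _ _
    _ ≤ 1 * 8 ^ k * ((k ! : ℕ) : ℝ) ^ 2 + 1 * 8 ^ k * ((k ! : ℕ) : ℝ) ^ 2 := by
        rw [h3]; gcongr
    _ = 2 * 8 ^ k * ((k ! : ℕ) : ℝ) ^ 2 := by ring

/-- the reciprocal of the denominator -/
noncomputable def vden (x : ℝ) : ℝ := (uden x)⁻¹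

lemma uden_pos (x : ℝ) : 0 < uden x := lt_of_lt_of_le (by norm_num) (uden_ge x)

lemma contDiff_vden : ContDiff ℝ ∞ vden :=
  contDiff_uden.inv fun x => (uden_pos x).ne'

lemma iter_vden (k : ℕ) : ∀ x : ℝ,
    |iteratedDeriv k vden x| ≤ 8 * 136 ^ k * ((k ! : ℕ) : ℝ) ^ 2 := by
  induction k using Nat.strong_induction_on with
  | _ k ih =>
    intro x
    rcases Nat.eq_zero_or_pos k with rfl | hk
    · simp only [iteratedDeriv_zero, pow_zero, mul_one, Nat.factorial_zero, Nat.cast_one, one_pow]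
      rw [vden, abs_of_pos (inv_pos.mpr (uden_pos x))]
      have := uden_ge x
      rw [inv_le_comm₀ (uden_pos x) (by norm_num)]
      linarith
    · have hone : uden * vden = fun _ => (1 : ℝ) := by
        funext y
        simp only [Pi.mul_apply, vden]
        exact mul_inv_cancel₀ (uden_pos y).ne'
      have hL := iteratedDeriv_mul (n := k) (x := x)
        ((contDiff_uden.of_le (by exact_mod_cast le_top)).contDiffAt)
        ((contDiff_vden.of_le (by exact_mod_cast le_top)).contDiffAt)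
      rw [hone, iteratedDeriv_const, if_neg hk.ne', Finset.sum_range_succ'] at hL
      simp only [Nat.choose_zero_right, Nat.cast_one, iteratedDeriv_zero, one_mul, Nat.sub_zero]
        at hL
      have hsum : |∑ i ∈ Finset.range k, ((k.choose (i + 1) : ℕ) : ℝ) * iteratedDeriv (i + 1) uden x
          * iteratedDeriv (k - (i + 1)) vden x| ≤ 136 ^ k * ((k ! : ℕ) : ℝ) ^ 2 := by
        calc _ ≤ ∑ i ∈ Finset.range k, |((k.choose (i + 1) : ℕ) : ℝ) * iteratedDeriv (i + 1) uden x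
              * iteratedDeriv (k - (i + 1)) vden x| := Finset.abs_sum_le_sum_abs _ _
          _ ≤ ∑ i ∈ Finset.range k, 2 * 8 * ((k ! : ℕ) : ℝ) ^ 2 * 136 ^ k * (1 / 17) ^ (i + 1) := by
              apply Finset.sum_le_sum
              intro i hi
              have hik : i + 1 ≤ k := Finset.mem_range.mp hi
              exact term_bound k (i + 1) hik _ _ 2 8 (by norm_num) (by norm_num)
                (iter_uden (i + 1) x) (ih (k - (i + 1)) (by omega) x)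
          _ = 2 * 8 * ((k ! : ℕ) : ℝ) ^ 2 * 136 ^ k * ∑ i ∈ Finset.range k, ((1 : ℝ) / 17) ^ (i + 1) := by
              rw [Finset.mul_sum]
          _ ≤ 2 * 8 * ((k ! : ℕ) : ℝ) ^ 2 * 136 ^ k * (1 / 16) := by
              gcongr
              exact geom17_le' k
          _ = 136 ^ k * ((k ! : ℕ) : ℝ) ^ 2 := by ring
      have hv : uden x * iteratedDeriv k vden x
          = -∑ i ∈ Finset.range k, ((k.choose (i + 1) : ℕ) : ℝ) * iteratedDeriv (i + 1) uden x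
          * iteratedDeriv (k - (i + 1)) vden x := by linarith
      have habs : uden x * |iteratedDeriv k vden x| ≤ 136 ^ k * ((k ! : ℕ) : ℝ) ^ 2 := by
        rw [← abs_of_pos (uden_pos x), ← abs_mul, hv, abs_neg]
        exact hsum
      have hu := uden_ge x
      have hnn := abs_nonneg (iteratedDeriv k vden x)
      nlinarith

/-- **B2**: explicit bound for all derivatives of `smoothTransition`. -/
theorem iter_smoothTransition (k : ℕ) (x : ℝ) :
    |iteratedDeriv k Real.smoothTransition x| ≤ 16 * 136 ^ k * ((k ! : ℕ) : ℝ) ^ 2 := by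
  have e : Real.smoothTransition = expNegInvGlue * vden := by
    funext y
    simp only [Real.smoothTransition, Pi.mul_apply, vden, uden, div_eq_mul_inv]
  have hL := iteratedDeriv_mul (n := k) (x := x)
    (expNegInvGlue.contDiff (n := k)).contDiffAt
    ((contDiff_vden.of_le (by exact_mod_cast le_top)).contDiffAt)
  rw [e, hL]
  calc _ ≤ ∑ i ∈ Finset.range (k + 1), |((k.choose i : ℕ) : ℝ) * iteratedDeriv i expNegInvGlue x
        * iteratedDeriv (k - i) vden x| := Finset.abs_sum_le_sum_abs _ _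
    _ ≤ ∑ i ∈ Finset.range (k + 1), 1 * 8 * ((k ! : ℕ) : ℝ) ^ 2 * 136 ^ k * (1 / 17) ^ i := by
        apply Finset.sum_le_sum
        intro i hi
        have hik : i ≤ k := Nat.lt_succ_iff.mp (Finset.mem_range.mp hi)
        exact term_bound k i hik _ _ 1 8 (by norm_num) (by norm_num) (iter_psi i x)
          (iter_vden (k - i) x)
    _ = 1 * 8 * ((k ! : ℕ) : ℝ) ^ 2 * 136 ^ k * ∑ i ∈ Finset.range (k + 1), ((1 : ℝ) / 17) ^ i := by
        rw [Finset.mul_sum]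
    _ ≤ 1 * 8 * ((k ! : ℕ) : ℝ) ^ 2 * 136 ^ k * (17 / 16) := by
        gcongr
        exact geom17_le (k + 1)
    _ ≤ 16 * 136 ^ k * ((k ! : ℕ) : ℝ) ^ 2 := by
        have : (0 : ℝ) ≤ 136 ^ k * ((k ! : ℕ) : ℝ) ^ 2 := by positivity
        nlinarith

end Crest.Agent.BoxFlow
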