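import Mathlib
import Crest.Agent.Lib_BoxFlow.Defs
import Crest.Agent.Lib_BoxFlow.QPrim
import Crest.Agent.Lib_BoxFlow.SBound
import Crest.Agent.Lib_BoxFlow.FD

/-!
B4: the class `Eff1` of effective smooth functions of one variable: construction from
approximations of the function itself (finite differences), closure properties.
-/

namespace Crest.Agent.BoxFlow

open scoped ContDiff

/-- the finite difference error estimate (B3) -/
def FdStmt : Prop :=
  ∀ (g : ℝ → ℝ), ContDiff ℝ ∞ g → ∀ (k : ℕ) (C : ℝ), (∀ x, |iteratedDeriv (k + 1) g x| ≤ C) →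
    ∀ (x ε : ℝ), 0 < ε →
    |(∑ i ∈ Finset.range (k + 1), (-1 : ℝ) ^ (k - i) * (k.choose i : ℝ) * g (x + i * ε)) / ε ^ k
      - iteratedDeriv k g x| ≤ k * ε * C

/-- step size denominator -/
def fdM (B : ℕ → ℕ) (k n : ℕ) : ℕ := (k + 1) * (B (k + 1) + 1) * (2 * (n + 1))

/-- precision needed -/
def fdN (B : ℕ → ℕ) (k n : ℕ) : ℕ := 2 * (n + 1) * (2 * fdM B k n) ^ k

/-- finite difference approximation -/
def fdA (A0 : ℚ × ℕ → ℚ) (B : ℕ → ℕ) (p : ℕ × ℚ × ℕ) : ℚ :=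
  (fdM B p.1 p.2.2 : ℚ) ^ p.1 * ∑ i ∈ Finset.range (p.1 + 1),
    (-1 : ℚ) ^ (p.1 - i) * (p.1.choose i : ℚ) * A0 (p.2.1 + (i : ℚ) / (fdM B p.1 p.2.2 : ℚ),
      fdN B p.1 p.2.2)

theorem primrec_fdM {B : ℕ → ℕ} (hB : Primrec B) : Primrec₂ (fdM B) := by
  unfold fdM
  have hk : Primrec (fun p : ℕ × ℕ => p.1) := Primrec.fst
  have hn : Primrec (fun p : ℕ × ℕ => p.2) := Primrec.snd
  exact Primrec.nat_mul.comp (Primrec.nat_mul.comp (Primrec.succ.comp hk)
    (Primrec.succ.comp (hB.comp (Primrec.succ.comp hk))))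
    (Primrec.nat_mul.comp (Primrec.const 2) (Primrec.succ.comp hn))

theorem primrec_fdN {B : ℕ → ℕ} (hB : Primrec B) : Primrec₂ (fdN B) := by
  unfold fdN
  have hk : Primrec (fun p : ℕ × ℕ => p.1) := Primrec.fst
  have hn : Primrec (fun p : ℕ × ℕ => p.2) := Primrec.snd
  exact Primrec.nat_mul.comp (Primrec.nat_mul.comp (Primrec.const 2) (Primrec.succ.comp hn))
    (primrec_npow.comp (Primrec.nat_mul.comp (Primrec.const 2) ((primrec_fdM hB).comp hk hn)) hk)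

theorem primrec_fdA {A0 : ℚ × ℕ → ℚ} (hA0 : Primrec A0) {B : ℕ → ℕ} (hB : Primrec B) :
    Primrec (fdA A0 B) := by
  unfold fdA
  have hk : Primrec (fun p : ℕ × ℚ × ℕ => p.1) := Primrec.fst
  have hq : Primrec (fun p : ℕ × ℚ × ℕ => p.2.1) := Primrec.fst.comp Primrec.snd
  have hn : Primrec (fun p : ℕ × ℚ × ℕ => p.2.2) := Primrec.snd.comp Primrec.snd
  have hM : Primrec (fun p : ℕ × ℚ × ℕ => fdM B p.1 p.2.2) := (primrec_fdM hB).comp hk hn
  have hN : Primrec (fun p : ℕ × ℚ × ℕ => fdN B p.1 p.2.2) := (primrec_fdN hB).comp hk hn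
  refine pr_mul (pr_pow (pr_cast hM) hk) ?_
  refine primrec_qsum (f := fun (p : ℕ × ℚ × ℕ) (i : ℕ) =>
    (-1 : ℚ) ^ (p.1 - i) * (p.1.choose i : ℚ) * A0 (p.2.1 + (i : ℚ) / (fdM B p.1 p.2.2 : ℚ),
      fdN B p.1 p.2.2)) ?_ (Primrec.succ.comp hk)
  have h1 : Primrec (fun r : (ℕ × ℚ × ℕ) × ℕ => r.1) := Primrec.fst
  have hi : Primrec (fun r : (ℕ × ℚ × ℕ) × ℕ => r.2) := Primrec.snd
  exact pr_mul (pr_mul (pr_pow (Primrec.const (-1)) (Primrec.nat_sub.comp (hk.comp h1) hi))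
    (pr_cast (primrec_choose.comp (hk.comp h1) hi)))
    (hA0.comp ((pr_add (hq.comp h1) (pr_div (pr_cast hi) (pr_cast (hM.comp h1)))).pair
      (hN.comp h1)))

theorem fdA_spec (fd : FdStmt) {g : ℝ → ℝ} (hg : ContDiff ℝ ∞ g) {A0 : ℚ × ℕ → ℚ}
    (hA : ∀ (q : ℚ) (n : ℕ), |g (q : ℝ) - (A0 (q, n) : ℝ)| ≤ 1 / ((n : ℝ) + 1))
    {B : ℕ → ℕ} (hBd : ∀ (k : ℕ) (x : ℝ), |iteratedDeriv k g x| ≤ (B k : ℝ))
    (k : ℕ) (q : ℚ) (n : ℕ) :
    |iteratedDeriv k g (q : ℝ) - (fdA A0 B (k, q, n) : ℝ)| ≤ 1 / ((n : ℝ) + 1) := by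
  set M : ℕ := fdM B k n with hM
  set N : ℕ := fdN B k n with hN
  have hMpos : 0 < M := by rw [hM]; unfold fdM; positivity
  have hMR : (0 : ℝ) < (M : ℝ) := by exact_mod_cast hMpos
  have hn1 : (0 : ℝ) < (n : ℝ) + 1 := by positivity
  -- the exact finite difference
  set F : ℝ := (∑ i ∈ Finset.range (k + 1), (-1 : ℝ) ^ (k - i) * (k.choose i : ℝ)
      * g ((q : ℝ) + i * (1 / (M : ℝ)))) / (1 / (M : ℝ)) ^ k with hF
  have h1 : |F - iteratedDeriv k g (q : ℝ)| ≤ 1 / (2 * ((n : ℝ) + 1)) := by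
    refine (fd g hg k (B (k + 1)) (hBd (k + 1)) q (1 / (M : ℝ)) (by positivity)).trans ?_
    rw [mul_one_div, div_mul_eq_mul_div, div_le_div_iff₀ hMR (by positivity)]
    have : (M : ℝ) = ((k : ℝ) + 1) * ((B (k + 1) : ℝ) + 1) * (2 * ((n : ℝ) + 1)) := by
      rw [hM]; unfold fdM; push_cast; ring
    rw [this, one_mul]
    have hk0 : (0 : ℝ) ≤ (k : ℝ) := Nat.cast_nonneg k
    have hB0 : (0 : ℝ) ≤ (B (k + 1) : ℝ) := Nat.cast_nonneg _
    have : (k : ℝ) * (B (k + 1) : ℝ) ≤ ((k : ℝ) + 1) * ((B (k + 1) : ℝ) + 1) := by nlinarith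
    exact mul_le_mul_of_nonneg_right this (by positivity)
  have h2 : |F - (fdA A0 B (k, q, n) : ℝ)| ≤ 1 / (2 * ((n : ℝ) + 1)) := by
    have e1 : F = (M : ℝ) ^ k * ∑ i ∈ Finset.range (k + 1), (-1 : ℝ) ^ (k - i) * (k.choose i : ℝ)
      * g ((q : ℝ) + i * (1 / (M : ℝ))) := by
      rw [hF, one_div, inv_pow, div_inv_eq_mul, mul_comm]
    have e2 : (fdA A0 B (k, q, n) : ℝ) = (M : ℝ) ^ k * ∑ i ∈ Finset.range (k + 1),
        (-1 : ℝ) ^ (k - i) * (k.choose i : ℝ) * (A0 (q + (i : ℚ) / (M : ℚ), N) : ℝ) := by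
      unfold fdA
      push_cast
      rfl
    rw [e1, e2, ← mul_sub, ← Finset.sum_sub_distrib, abs_mul, abs_of_pos (pow_pos hMR k)]
    have hs : |∑ i ∈ Finset.range (k + 1), ((-1 : ℝ) ^ (k - i) * (k.choose i : ℝ)
        * g ((q : ℝ) + i * (1 / (M : ℝ))) - (-1 : ℝ) ^ (k - i) * (k.choose i : ℝ)
        * (A0 (q + (i : ℚ) / (M : ℚ), N) : ℝ))| ≤ 2 ^ k * (1 / ((N : ℝ) + 1)) := by
      refine (Finset.abs_sum_le_sum_abs _ _).trans ?_
      have : (2 : ℝ) ^ k = ∑ i ∈ Finset.range (k + 1), (k.choose i : ℝ) := by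
        have := Nat.sum_range_choose k
        exact_mod_cast this.symm
      rw [this, Finset.sum_mul]
      refine Finset.sum_le_sum fun i _ => ?_
      rw [← mul_sub, abs_mul, abs_mul, abs_pow, abs_neg, abs_one, one_pow, one_mul,
        abs_of_nonneg (Nat.cast_nonneg _)]
      refine mul_le_mul_of_nonneg_left ?_ (Nat.cast_nonneg _)
      have := hA (q + (i : ℚ) / (M : ℚ)) N
      have e : (((q + (i : ℚ) / (M : ℚ) : ℚ)) : ℝ) = (q : ℝ) + i * (1 / (M : ℝ)) := by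
        push_cast; ring
      rwa [e] at this
    refine (mul_le_mul_of_nonneg_left hs (by positivity)).trans ?_
    have hNR : (N : ℝ) = 2 * ((n : ℝ) + 1) * (2 * (M : ℝ)) ^ k := by
      rw [hN]; unfold fdN; push_cast; rfl
    rw [← mul_assoc, mul_one_div, div_le_div_iff₀ (by positivity) (by positivity), hNR, one_mul,
      mul_pow]
    have : (0 : ℝ) ≤ (M : ℝ) ^ k * 2 ^ k * (2 * ((n : ℝ) + 1)) := by positivity
    nlinarith
  have h3 : iteratedDeriv k g (q : ℝ) - (fdA A0 B (k, q, n) : ℝ)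
      = (F - (fdA A0 B (k, q, n) : ℝ)) - (F - iteratedDeriv k g (q : ℝ)) := by ring
  rw [h3]
  refine (abs_sub _ _).trans ((add_le_add h2 h1).trans (le_of_eq ?_))
  field_simp
  norm_num

theorem Eff1.of_zeroth (fd : FdStmt) {g : ℝ → ℝ} (hg : ContDiff ℝ ∞ g) {A0 : ℚ × ℕ → ℚ}
    (hA0 : Primrec A0)
    (hA : ∀ (q : ℚ) (n : ℕ), |g (q : ℝ) - (A0 (q, n) : ℝ)| ≤ 1 / ((n : ℝ) + 1))
    {B : ℕ → ℕ} (hB : Primrec B) (hBd : ∀ (k : ℕ) (x : ℝ), |iteratedDeriv k g x| ≤ (B k : ℝ)) :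
    Eff1 g :=
  ⟨hg, ⟨fdA A0 B, primrec_fdA hA0 hB, fdA_spec fd hg hA hBd⟩, ⟨B, hB, hBd⟩⟩

/-! ### closure properties (direct) -/

theorem cd_at {g : ℝ → ℝ} (hg : ContDiff ℝ ∞ g) (k : ℕ) (x : ℝ) : ContDiffAt ℝ k g x :=
  (hg.of_le (by exact_mod_cast le_top)).contDiffAt

theorem cd_nat {g : ℝ → ℝ} (hg : ContDiff ℝ ∞ g) (k : ℕ) : ContDiff ℝ k g :=
  hg.of_le (by exact_mod_cast le_top)

theorem Eff1.deriv {g : ℝ → ℝ} (hg : Eff1 g) : Eff1 (deriv g) := by
  obtain ⟨A, hA, hAs⟩ := hg.approx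
  obtain ⟨B, hB, hBs⟩ := hg.bound
  refine ⟨?_, ⟨fun p => A (p.1 + 1, p.2), ?_, fun k q n => ?_⟩, ⟨fun k => B (k + 1), ?_, fun k x => ?_⟩⟩
  · exact (contDiff_infty_iff_deriv.1 hg.smooth).2
  · exact hA.comp ((Primrec.succ.comp Primrec.fst).pair Primrec.snd)
  · rw [← iteratedDeriv_succ']; exact hAs (k + 1) q n
  · exact hB.comp Primrec.succ
  · rw [← iteratedDeriv_succ']; exact hBs (k + 1) x

theorem Eff1.add {f g : ℝ → ℝ} (hf : Eff1 f) (hg : Eff1 g) : Eff1 (fun x => f x + g x) := by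
  obtain ⟨A, hA, hAs⟩ := hf.approx
  obtain ⟨B, hB, hBs⟩ := hf.bound
  obtain ⟨A', hA', hAs'⟩ := hg.approx
  obtain ⟨B', hB', hBs'⟩ := hg.bound
  have hk : Primrec (fun p : ℕ × ℚ × ℕ => p.1) := Primrec.fst
  have hq : Primrec (fun p : ℕ × ℚ × ℕ => p.2.1) := Primrec.fst.comp Primrec.snd
  have hn : Primrec (fun p : ℕ × ℚ × ℕ => p.2.2) := Primrec.snd.comp Primrec.snd
  have hn2 : Primrec (fun p : ℕ × ℚ × ℕ => 2 * p.2.2 + 1) :=
    Primrec.succ.comp (Primrec.nat_mul.comp (Primrec.const 2) hn)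
  have e : ∀ k x, iteratedDeriv k (fun x => f x + g x) x
      = iteratedDeriv k f x + iteratedDeriv k g x := fun k x =>
    iteratedDeriv_fun_add (cd_at hf.smooth k x) (cd_at hg.smooth k x)
  refine ⟨hf.smooth.add hg.smooth,
    ⟨fun p => A (p.1, p.2.1, 2 * p.2.2 + 1) + A' (p.1, p.2.1, 2 * p.2.2 + 1), ?_, fun k q n => ?_⟩,
    ⟨fun k => B k + B' k, Primrec.nat_add.comp hB hB', fun k x => ?_⟩⟩
  · exact pr_add (hA.comp (hk.pair (hq.pair hn2))) (hA'.comp (hk.pair (hq.pair hn2)))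
  · rw [e]
    have h1 := hAs k q (2 * n + 1)
    have h2 := hAs' k q (2 * n + 1)
    push_cast at h1 h2 ⊢
    have e2 : iteratedDeriv k f ↑q + iteratedDeriv k g ↑q - ((A (k, q, 2 * n + 1) : ℝ)
        + (A' (k, q, 2 * n + 1) : ℝ)) = (iteratedDeriv k f ↑q - (A (k, q, 2 * n + 1) : ℝ))
        + (iteratedDeriv k g ↑q - (A' (k, q, 2 * n + 1) : ℝ)) := by ring
    rw [e2]
    refine (abs_add_le _ _).trans ((add_le_add h1 h2).trans (le_of_eq ?_))
    field_simp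
    ring
  · rw [e]
    push_cast
    exact (abs_add_le _ _).trans (add_le_add (hBs k x) (hBs' k x))

theorem Eff1.const_mul {g : ℝ → ℝ} (hg : Eff1 g) (c : ℚ) : Eff1 (fun x => (c : ℝ) * g x) := by
  obtain ⟨A, hA, hAs⟩ := hg.approx
  obtain ⟨B, hB, hBs⟩ := hg.bound
  obtain ⟨C, hC⟩ := exists_nat_ge |(c : ℝ)|
  have hk : Primrec (fun p : ℕ × ℚ × ℕ => p.1) := Primrec.fst
  have hq : Primrec (fun p : ℕ × ℚ × ℕ => p.2.1) := Primrec.fst.comp Primrec.snd
  have hn : Primrec (fun p : ℕ × ℚ × ℕ => p.2.2) := Primrec.snd.comp Primrec.snd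
  have hn2 : Primrec (fun p : ℕ × ℚ × ℕ => C * (p.2.2 + 1)) :=
    Primrec.nat_mul.comp (Primrec.const C) (Primrec.succ.comp hn)
  refine ⟨contDiff_const.mul hg.smooth,
    ⟨fun p => c * A (p.1, p.2.1, C * (p.2.2 + 1)), ?_, fun k q n => ?_⟩,
    ⟨fun k => C * B k, Primrec.nat_mul.comp (Primrec.const C) hB, fun k x => ?_⟩⟩
  · exact pr_mul (Primrec.const c) (hA.comp (hk.pair (hq.pair hn2)))
  · rw [iteratedDeriv_const_mul_field]
    have h1 := hAs k q (C * (n + 1))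
    push_cast at h1 ⊢
    rw [← mul_sub, abs_mul]
    have hn1 : (0 : ℝ) < (n : ℝ) + 1 := by positivity
    have hC0 : (0 : ℝ) ≤ (C : ℝ) := Nat.cast_nonneg C
    refine (mul_le_mul hC h1 (abs_nonneg _) hC0).trans ?_
    rw [mul_one_div, div_le_div_iff₀ (by positivity) hn1]
    nlinarith
  · rw [iteratedDeriv_const_mul_field, abs_mul]
    push_cast
    exact mul_le_mul hC (hBs k x) (abs_nonneg _) (Nat.cast_nonneg C)

theorem Eff1.neg {g : ℝ → ℝ} (hg : Eff1 g) : Eff1 (fun x => - g x) := by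
  have := hg.const_mul (-1)
  simpa using this

theorem Eff1.sub {f g : ℝ → ℝ} (hf : Eff1 f) (hg : Eff1 g) : Eff1 (fun x => f x - g x) := by
  have := hf.add hg.neg
  simpa [sub_eq_add_neg] using this

theorem iteratedDeriv_comp_affine {g : ℝ → ℝ} (hg : ContDiff ℝ ∞ g) (a b : ℝ) (k : ℕ) (x : ℝ) :
    iteratedDeriv k (fun x => g (a * x + b)) x = a ^ k * iteratedDeriv k g (a * x + b) := by
  have h1 : ContDiff ℝ k (fun z => g (z + b)) :=
    (cd_nat hg k).comp (contDiff_id.add contDiff_const)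
  have h2 := iteratedDeriv_comp_const_mul h1 a
  have h3 := iteratedDeriv_comp_add_const k g b
  rw [h3] at h2
  exact congrFun h2 x

theorem Eff1.comp_affine {g : ℝ → ℝ} (hg : Eff1 g) (a b : ℚ) :
    Eff1 (fun x => g ((a : ℝ) * x + (b : ℝ))) := by
  obtain ⟨A, hA, hAs⟩ := hg.approx
  obtain ⟨B, hB, hBs⟩ := hg.bound
  obtain ⟨C, hC⟩ := exists_nat_ge |(a : ℝ)|
  have hk : Primrec (fun p : ℕ × ℚ × ℕ => p.1) := Primrec.fst
  have hq : Primrec (fun p : ℕ × ℚ × ℕ => p.2.1) := Primrec.fst.comp Primrec.snd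
  have hn : Primrec (fun p : ℕ × ℚ × ℕ => p.2.2) := Primrec.snd.comp Primrec.snd
  have hn2 : Primrec (fun p : ℕ × ℚ × ℕ => C ^ p.1 * (p.2.2 + 1)) :=
    Primrec.nat_mul.comp (primrec_npow.comp (Primrec.const C) hk) (Primrec.succ.comp hn)
  have hC0 : (0 : ℝ) ≤ (C : ℝ) := Nat.cast_nonneg C
  have hpow : ∀ k : ℕ, |(a : ℝ)| ^ k ≤ (C : ℝ) ^ k := fun k =>
    pow_le_pow_left₀ (abs_nonneg _) hC k
  refine ⟨hg.smooth.comp ((contDiff_const.mul contDiff_id).add contDiff_const),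
    ⟨fun p => a ^ p.1 * A (p.1, a * p.2.1 + b, C ^ p.1 * (p.2.2 + 1)), ?_, fun k q n => ?_⟩,
    ⟨fun k => C ^ k * B k, Primrec.nat_mul.comp (primrec_npow.comp (Primrec.const C) Primrec.id) hB,
      fun k x => ?_⟩⟩
  · exact pr_mul (pr_pow (Primrec.const a) hk)
      (hA.comp (hk.pair ((pr_add (pr_mul (Primrec.const a) hq) (Primrec.const b)).pair hn2)))
  · rw [iteratedDeriv_comp_affine hg.smooth]
    have h1 := hAs k (a * q + b) (C ^ k * (n + 1))
    push_cast at h1 ⊢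
    rw [← mul_sub, abs_mul, abs_pow]
    have hn1 : (0 : ℝ) < (n : ℝ) + 1 := by positivity
    have hCk : (0 : ℝ) ≤ (C : ℝ) ^ k := by positivity
    refine (mul_le_mul (hpow k) h1 (abs_nonneg _) hCk).trans ?_
    rw [mul_one_div, div_le_div_iff₀ (by positivity) hn1]
    nlinarith
  · rw [iteratedDeriv_comp_affine hg.smooth, abs_mul, abs_pow]
    push_cast
    exact mul_le_mul (hpow k) (hBs k _) (abs_nonneg _) (by positivity)

/-! ### multiplication by the identity (for compactly supported functions) -/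

theorem iteratedDeriv_id_mul {g : ℝ → ℝ} (hg : ContDiff ℝ ∞ g) (k : ℕ) :
    iteratedDeriv k (fun x => x * g x)
      = fun x => x * iteratedDeriv k g x + (k : ℝ) * iteratedDeriv (k - 1) g x := by
  induction k with
  | zero => funext x; simp
  | succ k ih =>
    rw [iteratedDeriv_succ, ih]
    funext x
    have dd : ∀ m : ℕ, DifferentiableAt ℝ (iteratedDeriv m g) x := fun m =>
      (hg.differentiable_iteratedDeriv m (by exact_mod_cast WithTop.coe_lt_top _)) x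
    have d1 : DifferentiableAt ℝ (iteratedDeriv k g) x := dd k
    have d2 : DifferentiableAt ℝ (iteratedDeriv (k - 1) g) x := dd (k - 1)
    have h1 : HasDerivAt (fun x => x * iteratedDeriv k g x)
        (1 * iteratedDeriv k g x + x * iteratedDeriv (k + 1) g x) x := by
      have := (hasDerivAt_id x).mul d1.hasDerivAt
      rw [← iteratedDeriv_succ] at this
      exact this
    have h2 : HasDerivAt (fun x => (k : ℝ) * iteratedDeriv (k - 1) g x)
        ((k : ℝ) * iteratedDeriv k g x) x := by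
      rcases Nat.eq_zero_or_pos k with rfl | hk
      · simpa using hasDerivAt_const x (0 : ℝ)
      · have := d2.hasDerivAt.const_mul (k : ℝ)
        rw [← iteratedDeriv_succ, Nat.sub_add_cancel hk] at this
        exact this
    have h3 : HasDerivAt (fun x => x * iteratedDeriv k g x + (k : ℝ) * iteratedDeriv (k - 1) g x)
        (1 * iteratedDeriv k g x + x * iteratedDeriv (k + 1) g x + (k : ℝ) * iteratedDeriv k g x) x :=
      h1.add h2
    rw [h3.deriv]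
    simp only [Nat.add_sub_cancel]
    push_cast
    ring

theorem iteratedDeriv_eq_zero_of_supp {g : ℝ → ℝ} {X : ℝ} (hX : ∀ x, X < |x| → g x = 0)
    (k : ℕ) (x : ℝ) (hx : X < |x|) : iteratedDeriv k g x = 0 := by
  have ho : IsOpen {y : ℝ | X < |y|} := isOpen_lt continuous_const continuous_abs
  have : g =ᶠ[nhds x] fun _ => (0 : ℝ) := by
    filter_upwards [ho.mem_nhds hx] with y hy
    exact hX y hy
  rw [this.iteratedDeriv_eq k]
  simp

theorem Eff1.id_mul {g : ℝ → ℝ} (hg : Eff1 g) {X : ℕ} (hX : ∀ x : ℝ, (X : ℝ) < |x| → g x = 0) :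
    Eff1 (fun x => x * g x) := by
  obtain ⟨A, hA, hAs⟩ := hg.approx
  obtain ⟨B, hB, hBs⟩ := hg.bound
  have hk : Primrec (fun p : ℕ × ℚ × ℕ => p.1) := Primrec.fst
  have hq : Primrec (fun p : ℕ × ℚ × ℕ => p.2.1) := Primrec.fst.comp Primrec.snd
  have hn : Primrec (fun p : ℕ × ℚ × ℕ => p.2.2) := Primrec.snd.comp Primrec.snd
  have hn2 : Primrec (fun p : ℕ × ℚ × ℕ => (p.2.1.num.natAbs + p.1) * (p.2.2 + 1)) :=
    Primrec.nat_mul.comp (Primrec.nat_add.comp (primrec_numNatAbs.comp hq) hk)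
      (Primrec.succ.comp hn)
  have hk1 : Primrec (fun p : ℕ × ℚ × ℕ => p.1 - 1) := Primrec.nat_sub.comp hk (Primrec.const 1)
  refine ⟨contDiff_id.mul hg.smooth,
    ⟨fun p => p.2.1 * A (p.1, p.2.1, (p.2.1.num.natAbs + p.1) * (p.2.2 + 1))
      + (p.1 : ℚ) * A (p.1 - 1, p.2.1, (p.2.1.num.natAbs + p.1) * (p.2.2 + 1)), ?_,
      fun k q n => ?_⟩,
    ⟨fun k => X * B k + k * B (k - 1), ?_, fun k x => ?_⟩⟩
  · exact pr_add (pr_mul hq (hA.comp (hk.pair (hq.pair hn2))))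
      (pr_mul (pr_cast hk) (hA.comp (hk1.pair (hq.pair hn2))))
  · rw [iteratedDeriv_id_mul hg.smooth]
    set N : ℕ := (q.num.natAbs + k) * (n + 1) with hN
    have h1 := hAs k q N
    have h2 := hAs (k - 1) q N
    show |(q : ℝ) * iteratedDeriv k g q + (k : ℝ) * iteratedDeriv (k - 1) g q
      - ((q * A (k, q, N) + (k : ℚ) * A (k - 1, q, N) : ℚ) : ℝ)| ≤ _
    push_cast
    have e : (q : ℝ) * iteratedDeriv k g q + (k : ℝ) * iteratedDeriv (k - 1) g q
      - ((q : ℝ) * (A (k, q, N) : ℝ) + (k : ℝ) * (A (k - 1, q, N) : ℝ))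
      = (q : ℝ) * (iteratedDeriv k g q - (A (k, q, N) : ℝ))
        + (k : ℝ) * (iteratedDeriv (k - 1) g q - (A (k - 1, q, N) : ℝ)) := by ring
    rw [e]
    have hq' : |(q : ℝ)| ≤ (q.num.natAbs : ℝ) := by
      have h0 : |q| ≤ (q.num.natAbs : ℚ) := by
        have hd : (1 : ℚ) ≤ (q.den : ℚ) := by exact_mod_cast q.den_pos
        have e1 : |q| = (q.num.natAbs : ℚ) / (q.den : ℚ) := by
          conv_lhs => rw [← Rat.num_div_den q]
          rw [abs_div, Nat.abs_cast]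
          congr 1
          rw [Nat.cast_natAbs]
          push_cast
          rfl
        rw [e1]
        exact div_le_self (Nat.cast_nonneg _) hd
      have : ((|q| : ℚ) : ℝ) ≤ ((q.num.natAbs : ℚ) : ℝ) := by exact_mod_cast h0
      simpa using this
    have hn1 : (0 : ℝ) < (n : ℝ) + 1 := by positivity
    have hN1 : (0 : ℝ) < (N : ℝ) + 1 := by positivity
    refine (abs_add_le _ _).trans ?_
    rw [abs_mul, abs_mul, Nat.abs_cast]
    have t1 : |(q : ℝ)| * |iteratedDeriv k g q - (A (k, q, N) : ℝ)|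
        ≤ (q.num.natAbs : ℝ) * (1 / ((N : ℝ) + 1)) :=
      mul_le_mul hq' h1 (abs_nonneg _) (Nat.cast_nonneg _)
    have t2 : (k : ℝ) * |iteratedDeriv (k - 1) g q - (A (k - 1, q, N) : ℝ)|
        ≤ (k : ℝ) * (1 / ((N : ℝ) + 1)) :=
      mul_le_mul_of_nonneg_left h2 (Nat.cast_nonneg _)
    refine (add_le_add t1 t2).trans ?_
    rw [← add_mul, mul_one_div, div_le_div_iff₀ hN1 hn1]
    have : (N : ℝ) = ((q.num.natAbs : ℝ) + (k : ℝ)) * ((n : ℝ) + 1) := by
      rw [hN]; push_cast; ring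
    rw [this]
    linarith
  · exact Primrec.nat_add.comp (Primrec.nat_mul.comp (Primrec.const X) hB)
      (Primrec.nat_mul.comp Primrec.id (hB.comp (Primrec.nat_sub.comp Primrec.id (Primrec.const 1))))
  · rw [iteratedDeriv_id_mul hg.smooth]
    push_cast
    refine (abs_add_le _ _).trans (add_le_add ?_ ?_)
    · rcases le_or_gt |x| (X : ℝ) with h | h
      · rw [abs_mul]
        exact mul_le_mul h (hBs k x) (abs_nonneg _) (Nat.cast_nonneg _)
      · rw [iteratedDeriv_eq_zero_of_supp hX k x h]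
        simp only [mul_zero, abs_zero]
        positivity
    · rw [abs_mul, Nat.abs_cast]
      exact mul_le_mul_of_nonneg_left (hBs (k - 1) x) (Nat.cast_nonneg _)

/-! ### the concrete functions -/

theorem fdStmt : FdStmt := fun g hg k C hC x ε hε => fd_error g hg k C hC ε hε x

theorem eff1_smoothTransition : Eff1 Real.smoothTransition := by
  refine Eff1.of_zeroth fdStmt Real.smoothTransition.contDiff (A0 := fun p => stQ p.1 p.2)
    primrec_stQ (fun q n => stQ_spec q n) (B := fun k => 16 * 136 ^ k * (k.factorial) ^ 2) ?_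
    (fun k x => ?_)
  · exact Primrec.nat_mul.comp (Primrec.nat_mul.comp (Primrec.const 16)
      (primrec_npow.comp (Primrec.const 136) Primrec.id))
      (primrec_npow.comp primrec_factorial (Primrec.const 2))
  · have := iter_smoothTransition k x
    push_cast
    exact this

theorem eff1_stepFn (s0 s1 : ℚ) : Eff1 (stepFn s0 s1) :=
  eff1_smoothTransition.comp_affine (1 / (s1 - s0)) (-s0 / (s1 - s0))

theorem eff1_plateau (lo hi m : ℚ) : Eff1 (plateau lo hi m) :=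
  (eff1_stepFn _ _).sub (eff1_stepFn _ _)

theorem eff1_mul_quad {g : ℝ → ℝ} (hg : Eff1 g) {X : ℕ} (hX : ∀ x : ℝ, (X : ℝ) < |x| → g x = 0)
    (α β : ℚ) : Eff1 (fun x => g x * ((α : ℝ) * x ^ 2 / 2 + (β : ℝ) * x)) := by
  have h1 : Eff1 (fun x => x * g x) := hg.id_mul hX
  have h2 : Eff1 (fun x => x * (x * g x)) :=
    h1.id_mul (X := X) (fun x hx => by rw [hX x hx, mul_zero])
  have h3 := (h2.const_mul (α / 2)).add (h1.const_mul β)
  have e : (fun x => g x * ((α : ℝ) * x ^ 2 / 2 + (β : ℝ) * x))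
      = fun x => ((α / 2 : ℚ) : ℝ) * (x * (x * g x)) + (β : ℝ) * (x * g x) := by
    funext x
    push_cast
    ring
  rw [e]
  exact h3

end Crest.Agent.BoxFlow
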