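import Crest.Agent.Lib_BoxFlow.Cutoff
import Crest.Agent.Lib_BoxFlow.Eff1
import Crest.Agent.Lib_BoxFlow.Sep
import Crest.Agent.Lib_BoxFlow.Flow

/-!
S0170, package B7 (helper7): realizability of the elementary moves, `elem : ElemStmt`.
-/

set_option autoImplicit false

namespace Crest.Agent.BoxFlow

open Crest.AnalysisR.BoxFlow Set Filter
open scoped ContDiff Topology

/-! ### the stream function factor -/

/-- the stream function factor `ξ(x) (α x² / 2 + β x)` -/
noncomputable def platF (lo hi m α β : ℚ) (x : ℝ) : ℝ :=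
  plateau lo hi m x * ((α : ℝ) * x ^ 2 / 2 + (β : ℝ) * x)

lemma contDiff_platF (lo hi m α β : ℚ) : ContDiff ℝ ∞ (platF lo hi m α β) := by
  unfold platF
  exact (contDiff_plateau lo hi m).mul (by fun_prop)

lemma hasCompactSupport_platF {lo hi m : ℚ} (α β : ℚ) (hm : 0 < m) (hlh : lo ≤ hi) :
    HasCompactSupport (platF lo hi m α β) :=
  (hasCompactSupport_plateau hm hlh).mul_right

lemma eff1_platF {lo hi m : ℚ} (α β : ℚ) (hm : 0 < m) (hlh : lo ≤ hi) :
    Eff1 (platF lo hi m α β) := by
  obtain ⟨X, hX⟩ := exists_plateau_bound (lo := lo) (hi := hi) hm hlh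
  exact eff1_mul_quad (eff1_plateau lo hi m) hX α β

lemma contDiff_deriv_of {f : ℝ → ℝ} (hf : ContDiff ℝ ∞ f) : ContDiff ℝ ∞ (deriv f) :=
  (contDiff_infty_iff_deriv.mp hf).2

lemma deriv_platF_inner {lo hi m : ℚ} (α β : ℚ) (hm : 0 < m) {x : ℝ} (hx : x ∈ Icc (lo : ℝ) hi) :
    deriv (platF lo hi m α β) x = (α : ℝ) * x + β := by
  have : platF lo hi m α β =ᶠ[𝓝 x] fun y => ((α : ℝ) * y ^ 2 / 2 + (β : ℝ) * y) := by
    filter_upwards [plateau_eventuallyEq_one hm hx] with y hy
    rw [platF, hy, one_mul]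
  rw [this.deriv_eq]
  have h : HasDerivAt (fun y : ℝ => ((α : ℝ) * y ^ 2 / 2 + (β : ℝ) * y))
      ((α : ℝ) * (2 * x) / 2 + (β : ℝ) * 1) x := by
    have hx := hasDerivAt_id x
    have h2 : HasDerivAt (fun y : ℝ => y ^ 2) (2 * x) x := by
      simpa using hasDerivAt_pow 2 x
    exact ((h2.const_mul (α : ℝ)).div_const 2).add (hx.const_mul (β : ℝ))
  rw [h.deriv]; ring

lemma platF_outer {lo hi m : ℚ} (α β : ℚ) (hm : 0 < m) (hlh : lo ≤ hi) {x : ℝ}
    (h : x ≤ (lo : ℝ) - m ∨ (hi : ℝ) + m ≤ x) : platF lo hi m α β x = 0 := by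
  rw [platF, (plateau_eventuallyEq_zero hm hlh h).self_of_nhds, zero_mul]

lemma deriv_platF_outer {lo hi m : ℚ} (α β : ℚ) (hm : 0 < m) (hlh : lo ≤ hi) {x : ℝ}
    (h : x ≤ (lo : ℝ) - m ∨ (hi : ℝ) + m ≤ x) : deriv (platF lo hi m α β) x = 0 := by
  have : platF lo hi m α β =ᶠ[𝓝 x] fun _ => (0 : ℝ) := by
    filter_upwards [plateau_eventuallyEq_zero hm hlh h] with y hy
    rw [platF, hy, zero_mul]
  rw [this.deriv_eq, deriv_const]

/-! ### bookkeeping for `Function.update` -/

lemma update_prop {P : (ℝ → ℝ) → Prop} {f : Fin 3 → ℝ → ℝ} {i : Fin 3} {v : ℝ → ℝ}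
    (hf : ∀ d, P (f d)) (hv : P v) : ∀ d, P (Function.update f i v d) := by
  intro d
  by_cases h : d = i
  · subst h; rw [Function.update_self]; exact hv
  · rw [Function.update_of_ne h]; exact hf d

lemma prod_update_neg (f : Fin 3 → ℝ → ℝ) (a : Fin 3) (u : ℝ → ℝ) (x : E3) :
    ∏ d, Function.update f a (fun y => -u y) d (x d) = -∏ d, Function.update f a u d (x d) := by
  rw [← Finset.mul_prod_erase Finset.univ _ (Finset.mem_univ a),
    ← Finset.mul_prod_erase Finset.univ (fun d => Function.update f a u d (x d))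
      (Finset.mem_univ a)]
  simp only [Function.update_self]
  rw [neg_mul]
  congr 2
  apply Finset.prod_congr rfl
  intro d hd
  have hne : d ≠ a := Finset.ne_of_mem_erase hd
  rw [Function.update_of_ne hne, Function.update_of_ne hne]

/-! ### the stage field -/

section stage

variable (s0 s1 : ℚ) (a j : Fin 3) (α β : ℚ) (lo hi : Fin 3 → ℚ) (m : ℚ)

/-- the space factors of the `a`-component -/
noncomputable def fac1 : Fin 3 → ℝ → ℝ :=
  Function.update (fun d => plateau (lo d) (hi d) m) j (deriv (platF (lo j) (hi j) m α β))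

/-- the space factors of the `j`-component -/
noncomputable def fac2 : Fin 3 → ℝ → ℝ :=
  Function.update (Function.update (fun d => plateau (lo d) (hi d) m) a
    (fun x => -deriv (plateau (lo a) (hi a) m) x)) j (platF (lo j) (hi j) m α β)

/-- the stage field -/
noncomputable def stage : Field :=
  sep (deriv (stepFn s0 s1)) (fac1 j α β lo hi m) a
    + sep (deriv (stepFn s0 s1)) (fac2 a j α β lo hi m) j

variable {s0 s1 a j α β lo hi m}

lemma contDiff_fac1 : ∀ d, ContDiff ℝ ∞ (fac1 j α β lo hi m d) :=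
  update_prop (P := ContDiff ℝ ∞) (fun _ => contDiff_plateau _ _ _)
    (contDiff_deriv_of (contDiff_platF _ _ _ _ _))

lemma contDiff_fac2 : ∀ d, ContDiff ℝ ∞ (fac2 a j α β lo hi m d) :=
  update_prop (P := ContDiff ℝ ∞)
    (update_prop (P := ContDiff ℝ ∞) (fun _ => contDiff_plateau _ _ _)
      (contDiff_deriv_of (contDiff_plateau _ _ _)).neg)
    (contDiff_platF _ _ _ _ _)

lemma good_stage (hs : s0 < s1) (haj : a ≠ j) (hm : 0 < m) (hlh : ∀ d, lo d < hi d) :
    Good (stage s0 s1 a j α β lo hi m) s0 s1 := by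
  have hτ : ContDiff ℝ ∞ (deriv (stepFn s0 s1)) := contDiff_deriv_stepFn s0 s1
  have c1 : ContDiff ℝ ∞ (sep (deriv (stepFn s0 s1)) (fac1 j α β lo hi m) a) :=
    contDiff_sep a hτ contDiff_fac1
  have c2 : ContDiff ℝ ∞ (sep (deriv (stepFn s0 s1)) (fac2 a j α β lo hi m) j) :=
    contDiff_sep j hτ contDiff_fac2
  refine ⟨c1.add c2, ?_, ?_, ?_, ?_⟩
  · refine HasCompactSupport.add
      (hasCompactSupport_sep a (hasCompactSupport_deriv_stepFn hs)
        (update_prop (P := HasCompactSupport)
          (fun d => hasCompactSupport_plateau hm (hlh d).le)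
          (hasCompactSupport_platF α β hm (hlh j).le).deriv))
      (hasCompactSupport_sep j (hasCompactSupport_deriv_stepFn hs)
        (update_prop (P := HasCompactSupport)
          (update_prop (P := HasCompactSupport)
            (fun d => hasCompactSupport_plateau hm (hlh d).le)
            (hasCompactSupport_plateau hm (hlh a).le).deriv.neg)
          (hasCompactSupport_platF α β hm (hlh j).le)))
  · refine Effective.add c1 c2
      (effective_sep a (eff1_stepFn s0 s1).deriv
        (update_prop (P := Eff1) (fun d => eff1_plateau _ _ _)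
          (eff1_platF α β hm (hlh j).le).deriv))
      (effective_sep j (eff1_stepFn s0 s1).deriv
        (update_prop (P := Eff1)
          (update_prop (P := Eff1) (fun d => eff1_plateau _ _ _)
            (eff1_plateau _ _ _).deriv.neg)
          (eff1_platF α β hm (hlh j).le)))
  · intro p hp
    have h0 : deriv (stepFn s0 s1) p.1 = 0 := deriv_stepFn_eq_zero hs hp
    simp only [stage, Pi.add_apply]
    rw [sep_eq_zero_of_time _ _ h0, sep_eq_zero_of_time _ _ h0, add_zero]
  · intro p
    unfold stage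
    rw [spaceDiv_add c1 c2, spaceDiv_sep a hτ contDiff_fac1, spaceDiv_sep j hτ contDiff_fac2]
    have e1 : fac1 j α β lo hi m a = plateau (lo a) (hi a) m := by
      unfold fac1; rw [Function.update_of_ne haj]
    have e2 : fac2 a j α β lo hi m j = platF (lo j) (hi j) m α β := by
      unfold fac2; rw [Function.update_self]
    rw [e1, e2]
    unfold fac1 fac2
    rw [Function.update_idem, Function.update_comm haj, prod_update_neg]
    ring

/-- on the inner box the stage field is `τ(t) (α x_j + β) e_a` -/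
lemma stage_inner (haj : a ≠ j) (hm : 0 < m) (t : ℝ) (x : E3)
    (hx : ∀ d, x d ∈ Icc (lo d : ℝ) (hi d)) :
    stage s0 s1 a j α β lo hi m (t, x)
      = Pi.single a (deriv (stepFn s0 s1) t * ((α : ℝ) * x j + β)) := by
  simp only [stage, Pi.add_apply]
  have h2 : sep (deriv (stepFn s0 s1)) (fac2 a j α β lo hi m) j (t, x) = 0 := by
    apply sep_eq_zero_of_space _ _ a
    unfold fac2
    rw [Function.update_of_ne haj, Function.update_self]
    simp only
    rw [deriv_plateau_eq_zero_of_mem hm (hx a), neg_zero]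
  rw [h2, add_zero, sep_apply]
  congr 2
  simp only
  rw [Finset.prod_eq_single j]
  · unfold fac1
    rw [Function.update_self, deriv_platF_inner α β hm (hx j)]
  · intro d _ hd
    unfold fac1
    rw [Function.update_of_ne hd]
    exact (plateau_eventuallyEq_one hm (hx d)).self_of_nhds
  · intro h; exact absurd (Finset.mem_univ j) h

/-- outside the outer box the stage field vanishes -/
lemma stage_outer (hm : 0 < m) (hlh : ∀ d, lo d < hi d) (t : ℝ) (x : E3)
    (hx : ∃ d, x d ≤ (lo d : ℝ) - m ∨ (hi d : ℝ) + m ≤ x d) :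
    stage s0 s1 a j α β lo hi m (t, x) = 0 := by
  obtain ⟨d, hd⟩ := hx
  simp only [stage, Pi.add_apply]
  have h1 : sep (deriv (stepFn s0 s1)) (fac1 j α β lo hi m) a (t, x) = 0 := by
    apply sep_eq_zero_of_space _ _ d
    unfold fac1
    by_cases hdj : d = j
    · subst hdj
      rw [Function.update_self]
      exact deriv_platF_outer α β hm (hlh d).le hd
    · rw [Function.update_of_ne hdj]
      exact (plateau_eventuallyEq_zero hm (hlh d).le hd).self_of_nhds
  have h2 : sep (deriv (stepFn s0 s1)) (fac2 a j α β lo hi m) j (t, x) = 0 := by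
    apply sep_eq_zero_of_space _ _ d
    unfold fac2
    by_cases hdj : d = j
    · subst hdj
      rw [Function.update_self]
      exact platF_outer α β hm (hlh d).le hd
    · rw [Function.update_of_ne hdj]
      by_cases hda : d = a
      · subst hda
        rw [Function.update_self]
        simp only
        rw [deriv_plateau_eq_zero_of_far hm (hlh d).le hd, neg_zero]
      · rw [Function.update_of_ne hda]
        exact (plateau_eventuallyEq_zero hm (hlh d).le hd).self_of_nhds
  rw [h1, h2, add_zero]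

end stage

lemma elemMap_apply_of_ne {a j : Fin 3} (haj : a ≠ j) (α β : ℚ) (θ : ℝ) (x : E3) :
    elemMap a j α β θ x j = x j := by
  simp [elemMap, Pi.single_eq_of_ne haj.symm]

lemma hasDerivAt_elemMap (s0 s1 : ℚ) (a j : Fin 3) (α β : ℚ) (z : E3) (t : ℝ) :
    HasDerivAt (fun t => elemMap a j α β (stepFn s0 s1 t) z)
      (Pi.single a (deriv (stepFn s0 s1) t * ((α : ℝ) * z j + β))) t := by
  rw [hasDerivAt_pi]
  intro i
  unfold elemMap
  simp only [Pi.add_apply]
  by_cases hi : i = a
  · subst hi
    simp only [Pi.single_eq_same]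
    exact ((hasDerivAt_stepFn s0 s1 t).mul_const _).const_add _
  · simp only [Pi.single_eq_of_ne hi, add_zero]
    exact hasDerivAt_const _ _

/-- **B7**: the elementary moves are realizable. -/
theorem elem : ElemStmt := by
  intro ι K R a j α β lo hi m haj hm hlh hKR s0 s1 hs
  have hs' : (s0 : ℝ) < s1 := by exact_mod_cast hs
  have hG := good_stage (α := α) (β := β) hs haj hm hlh
  refine ⟨stage s0 s1 a j α β lo hi m, hG, fun i => ?_⟩
  obtain ⟨C, hC⟩ := ContDiff.lipschitzWith_of_hasCompactSupport hG.compact hG.smooth (by simp)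
  apply carries_of_curve hC hs'.le
  intro z hz
  rcases hKR i with ⟨hR, hin⟩ | ⟨hR, hout⟩
  · refine ⟨fun t => elemMap a j α β (stepFn s0 s1 t) z, fun t _ => ?_, ?_, ?_⟩
    · have hx : ∀ d, elemMap a j α β (stepFn s0 s1 t) z d ∈ Icc (lo d : ℝ) (hi d) :=
        fun d => hin z hz _ (stepFn_mem_Icc s0 s1 t) d
      simp only
      rw [stage_inner haj hm t _ hx, elemMap_apply_of_ne haj]
      exact (hasDerivAt_elemMap s0 s1 a j α β z t).hasDerivWithinAt
    · simp only
      rw [stepFn_eq_zero hs le_rfl]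
      simp [elemMap]
    · simp only
      rw [stepFn_eq_one hs le_rfl, hR]
  · refine ⟨fun _ => z, fun t _ => ?_, rfl, ?_⟩
    · simp only
      rw [stage_outer hm hlh t z (hout z hz)]
      exact hasDerivWithinAt_const _ _ _
    · rw [hR]; rfl

end Crest.Agent.BoxFlow
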