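import Crest.Agent.Lib_BoxFlow.Defs

/-!
Package B8 of S0170: motion planning.  Everything here is derived from the abstract `Kit`
(realizability of elementary moves, reflexivity, monotonicity and transitivity of `Realizable`).
-/

set_option autoImplicit false

namespace Crest.Agent.BoxFlow

open Crest.AnalysisR.BoxFlow

/-- What the planning part needs from the analytic part. -/
structure Kit : Prop where
  elem : ElemStmt
  refl : ∀ {ι : Type} (K : ι → Set E3), Realizable K (fun _ => id)
  mono : ∀ {ι : Type} {K K' : ι → Set E3} {R : ι → E3 → E3},
    (∀ i, K' i ⊆ K i) → Realizable K R → Realizable K' R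
  trans : ∀ {ι : Type} {K K' : ι → Set E3} {R R' : ι → E3 → E3},
    Realizable K R → Realizable K' R' → (∀ i, Set.MapsTo (R i) (K i) (K' i)) →
      Realizable K (fun i => R' i ∘ R i)

/-- the affine map carrying `box c w` onto `box c' w'` -/
noncomputable def aff (c w c' w' : Fin 3 → ℚ) (x : E3) : E3 :=
  fun d => (c' d : ℝ) + ((w' d / w d : ℚ) : ℝ) * (x d - (c d : ℝ))

lemma aff_self (c w : Fin 3 → ℚ) (hw : ∀ d, w d ≠ 0) : aff c w c w = id := by
  funext x d
  simp [aff, div_self (hw d)]

lemma aff_comp (c w c' w' c'' w'' : Fin 3 → ℚ) (hw' : ∀ d, w' d ≠ 0) :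
    aff c' w' c'' w'' ∘ aff c w c' w' = aff c w c'' w'' := by
  funext x d
  have h : (w' d : ℝ) ≠ 0 := by exact_mod_cast hw' d
  simp only [aff, Function.comp, Rat.cast_div]
  field_simp
  ring

lemma aff_mapsTo (c w c' w' : Fin 3 → ℚ) (hw : ∀ d, 0 < w d) (hw' : ∀ d, 0 ≤ w' d) :
    Set.MapsTo (aff c w c' w') (box c w) (box c' w') := by
  intro x hx d
  have h1 : (0 : ℝ) < w d := by exact_mod_cast hw d
  have h2 : (0 : ℝ) ≤ w' d := by exact_mod_cast hw' d
  have h3 := hx d
  simp only [aff, Rat.cast_div, add_sub_cancel_left]
  rw [abs_mul, abs_of_nonneg (div_nonneg h2 h1.le), div_mul_eq_mul_div, div_le_iff₀ h1]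
  exact mul_le_mul_of_nonneg_left h3 h2

/-- reachability of box configurations -/
def Reach {n : ℕ} (c w c' w' : Fin n → Fin 3 → ℚ) : Prop :=
  Realizable (fun i => box (c i) (w i)) (fun i => aff (c i) (w i) (c' i) (w' i))

lemma Reach.refl (kit : Kit) {n : ℕ} (c w : Fin n → Fin 3 → ℚ) (hw : ∀ i d, 0 < w i d) :
    Reach c w c w := by
  have : (fun i => aff (c i) (w i) (c i) (w i)) = fun _ => id := by
    funext i
    exact aff_self _ _ (fun d => (hw i d).ne')
  unfold Reach
  rw [this]
  exact kit.refl _

lemma Reach.trans (kit : Kit) {n : ℕ} {c w c' w' c'' w'' : Fin n → Fin 3 → ℚ}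
    (hw : ∀ i d, 0 < w i d) (hw' : ∀ i d, 0 < w' i d)
    (h1 : Reach c w c' w') (h2 : Reach c' w' c'' w'') : Reach c w c'' w'' := by
  have h := kit.trans h1 h2 (fun i => aff_mapsTo _ _ _ _ (hw i) (fun d => (hw' i d).le))
  have e : (fun i => aff (c' i) (w' i) (c'' i) (w'' i) ∘ aff (c i) (w i) (c' i) (w' i)) =
      fun i => aff (c i) (w i) (c'' i) (w'' i) := by
    funext i
    exact aff_comp _ _ _ _ _ _ (fun d => (hw' i d).ne')
  rw [e] at h
  exact h

/-- the box of half-widths `wj` at `r` is `μ`-separated from the region swept by the box of
half-widths `wi` moving from `p` to `q` -/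
def Clear (μ : ℚ) (wi wj p q r : Fin 3 → ℚ) : Prop :=
  ∃ d, (p d + wi d + μ + wj d ≤ r d ∧ q d + wi d + μ + wj d ≤ r d) ∨
       (r d + wj d + μ + wi d ≤ p d ∧ r d + wj d + μ + wi d ≤ q d)

/-- an elementary translation of one box along one axis through free space -/
def Step {n : ℕ} (μ : ℚ) (w : Fin n → Fin 3 → ℚ) (c c' : Fin n → Fin 3 → ℚ) : Prop :=
  ∃ (i : Fin n) (a : Fin 3) (t : ℚ), c' = Function.update c i (Function.update (c i) a t) ∧
    ∀ j, j ≠ i → Clear μ (w i) (w j) (c i) (Function.update (c i) a t) (c j)

lemma Step.symm {n : ℕ} {μ : ℚ} {w c c' : Fin n → Fin 3 → ℚ} (h : Step μ w c c') :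
    Step μ w c' c := by
  obtain ⟨i, a, t, rfl, hcl⟩ := h
  refine ⟨i, a, c i a, ?_, ?_⟩
  · simp
  · intro j hj
    obtain ⟨d, hd⟩ := hcl j hj
    refine ⟨d, ?_⟩
    simp only [Function.update_self, Function.update_idem, Function.update_eq_self,
      Function.update_of_ne hj]
    tauto

lemma Step.reach (kit : Kit) {n : ℕ} {μ : ℚ} (hμ : 0 < μ) {w c c' : Fin n → Fin 3 → ℚ}
    (hw : ∀ i d, 0 < w i d) (h : Step μ w c c') : Reach c w c' w := by
  obtain ⟨i, a, t, rfl, hcl⟩ := h
  have ha : a ≠ a + 1 := by
    fin_cases a <;> decide
  refine kit.elem (Fin n) _ _ a (a + 1) 0 (t - c i a)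
    (fun d => min (c i d) (Function.update (c i) a t d) - w i d)
    (fun d => max (c i d) (Function.update (c i) a t d) + w i d) μ ha hμ ?_ ?_
  · intro d
    have := hw i d
    have h2 : min (c i d) (Function.update (c i) a t d) ≤ max (c i d) (Function.update (c i) a t d) :=
      min_le_max
    linarith
  · intro j
    by_cases hj : j = i
    · subst hj
      left
      constructor
      · funext x d
        have h1 : (w j d : ℝ) ≠ 0 := by exact_mod_cast (hw j d).ne'
        by_cases hd : d = a
        · subst hd
          simp [aff, elemMap, div_self h1]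
          ring
        · simp [aff, elemMap, div_self h1, hd]
      · intro x hx θ hθ d
        have hxd := abs_le.1 (hx d)
        by_cases hd : d = a
        · subst hd
          simp only [elemMap, Function.update_self, Pi.add_apply, Pi.single_eq_same]
          push_cast
          have h0 := hθ.1
          have h1 := hθ.2
          rcases le_total (c j d : ℝ) (t : ℝ) with hct | hct
          · rw [min_eq_left hct, max_eq_right hct]
            constructor <;> nlinarith
          · rw [min_eq_right hct, max_eq_left hct]
            constructor <;> nlinarith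
        · simp only [elemMap, Function.update_of_ne hd, Pi.add_apply, Pi.single_eq_of_ne hd,
            min_self, max_self]
          push_cast
          constructor <;> linarith
    · right
      constructor
      · simp only [Function.update_of_ne hj]
        exact aff_self _ _ (fun d => (hw j d).ne')
      · intro x hx
        obtain ⟨d, hd⟩ := hcl j hj
        refine ⟨d, ?_⟩
        have hxd := abs_le.1 (hx d)
        rcases hd with ⟨h1, h2⟩ | ⟨h1, h2⟩
        · right
          have h3 : max (c i d) (Function.update (c i) a t d) + w i d + μ + w j d ≤ c j d := by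
            rcases max_cases (c i d) (Function.update (c i) a t d) with ⟨e, -⟩ | ⟨e, -⟩ <;>
              rw [e] <;> assumption
          have h4 : ((max (c i d) (Function.update (c i) a t d) + w i d + μ + w j d : ℚ) : ℝ)
              ≤ (c j d : ℝ) := by exact_mod_cast h3
          push_cast at h4 ⊢
          linarith
        · left
          have h3 : c j d + w j d + μ + w i d ≤ min (c i d) (Function.update (c i) a t d) := by
            rcases min_cases (c i d) (Function.update (c i) a t d) with ⟨e, -⟩ | ⟨e, -⟩ <;>
              rw [e] <;> assumption
          have h4 : ((c j d + w j d + μ + w i d : ℚ) : ℝ)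
              ≤ ((min (c i d) (Function.update (c i) a t d) : ℚ) : ℝ) := by exact_mod_cast h3
          push_cast at h4 ⊢
          linarith

lemma reach_of_steps (kit : Kit) {n : ℕ} {μ : ℚ} (hμ : 0 < μ) {w c c' : Fin n → Fin 3 → ℚ}
    (hw : ∀ i d, 0 < w i d) (h : Relation.ReflTransGen (Step μ w) c c') : Reach c w c' w := by
  induction h with
  | refl => exact Reach.refl kit c w hw
  | tail _ h2 ih => exact Reach.trans kit hw hw ih (h2.reach kit hμ hw)

lemma steps_symm {n : ℕ} {μ : ℚ} {w c c' : Fin n → Fin 3 → ℚ}
    (h : Relation.ReflTransGen (Step μ w) c c') : Relation.ReflTransGen (Step μ w) c' c := by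
  induction h with
  | refl => exact Relation.ReflTransGen.refl
  | tail _ h2 ih => exact Relation.ReflTransGen.head h2.symm ih

lemma Step.of_update {n : ℕ} {μ : ℚ} {w : Fin n → Fin 3 → ℚ} (C : Fin n → Fin 3 → ℚ) (i : Fin n)
    (p : Fin 3 → ℚ) (a : Fin 3) (t : ℚ)
    (h : ∀ j, j ≠ i → Clear μ (w i) (w j) p (Function.update p a t) (C j)) :
    Step μ w (Function.update C i p) (Function.update C i (Function.update p a t)) := by
  refine ⟨i, a, t, ?_, ?_⟩
  · simp
  · intro j hj
    simpa [Function.update_of_ne hj] using h j hj

/-- parked positions: on the first axis, at abscissa `X i` -/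
def parkPos {n : ℕ} (X : Fin n → ℚ) (i : Fin n) : Fin 3 → ℚ := ![X i, 0, 0]

lemma park {n : ℕ} {μ M : ℚ} {w c : Fin n → Fin 3 → ℚ} {X : Fin n → ℚ}
    (hμ : 0 < μ) (hw : ∀ i d, 0 < w i d)
    (hsep : ∀ i j, i ≠ j → ∃ d, w i d + w j d + μ ≤ |c i d - c j d|)
    (hM : ∀ i d, |c i d| + w i d + μ ≤ M)
    (hX : ∀ i, 2 * M ≤ X i) (hXX : ∀ i j, i ≠ j → 2 * M ≤ |X i - X j|) :
    Relation.ReflTransGen (Step μ w) c (parkPos X) := by
  classical
  have hM1 : ∀ i d, c i d + w i d + μ ≤ M := fun i d => by
    have := hM i d; have := le_abs_self (c i d); linarith
  have hM2 : ∀ i d, - c i d + w i d + μ ≤ M := fun i d => by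
    have := hM i d; have := neg_abs_le (c i d); linarith
  have hM3 : ∀ i d, w i d + μ ≤ M := fun i d => by
    have := hM i d; have := abs_nonneg (c i d); linarith
  set st : Finset (Fin n) → Fin n → Fin 3 → ℚ :=
    fun T i => if i ∈ T then c i else parkPos X i with hst
  have key : ∀ T : Finset (Fin n), Relation.ReflTransGen (Step μ w) (st T) (parkPos X) := by
    intro T
    induction T using Finset.induction_on_max_value (fun i => c i 2) with
    | empty =>
      have : st ∅ = parkPos X := by funext i; simp [hst]
      rw [this]
    | insert a s has hmax ih =>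
      refine Relation.ReflTransGen.trans ?_ ih
      have e0 : st (insert a s) = Function.update (st s) a (c a) := by
        funext j
        by_cases hj : j = a
        · subst hj; simp [hst]
        · simp [hst, hj, Function.update_of_ne hj]
      have e4 : st s = Function.update (st s) a
          (Function.update (Function.update (Function.update (Function.update (c a) 2 (2 * M))
            0 (X a)) 1 0) 2 0) := by
        funext j
        by_cases hj : j = a
        · subst hj
          funext d
          fin_cases d <;> simp [hst, has, parkPos]
        · simp [Function.update_of_ne hj]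
      have s1 : Step μ w (Function.update (st s) a (c a))
          (Function.update (st s) a (Function.update (c a) 2 (2 * M))) := by
        apply Step.of_update
        intro j hj
        by_cases hjs : j ∈ s
        · have ej : st s j = c j := by simp [hst, hjs]
          rw [ej]
          obtain ⟨d, hd⟩ := hsep a j (Ne.symm hj)
          by_cases hd2 : d = 2
          · subst hd2
            have h1 : c j 2 ≤ c a 2 := hmax j hjs
            rw [abs_of_nonneg (by linarith)] at hd
            refine ⟨2, Or.inr ⟨by linarith, ?_⟩⟩
            simp only [Function.update_self]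
            have := hM1 j 2; have := hM3 a 2
            linarith
          · refine ⟨d, ?_⟩
            simp only [Function.update_of_ne hd2]
            rcases le_abs.1 hd with h | h
            · right; constructor <;> linarith
            · left; constructor <;> linarith
        · have ej : st s j = parkPos X j := by simp [hst, hjs]
          rw [ej]
          refine ⟨0, Or.inl ?_⟩
          have h0 : (0 : Fin 3) ≠ 2 := by decide
          simp only [Function.update_of_ne h0, parkPos, Matrix.cons_val_zero]
          have := hM1 a 0; have := hM3 j 0; have := hX j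
          constructor <;> linarith
      have hz : ∀ j, st s j 2 + w j 2 + μ ≤ M := by
        intro j
        by_cases hjs : j ∈ s
        · have ej : st s j = c j := by simp [hst, hjs]
          rw [ej]; exact hM1 j 2
        · have ej : st s j = parkPos X j := by simp [hst, hjs]
          rw [ej]
          have := hM3 j 2
          simpa [parkPos] using this
      have s2 : Step μ w (Function.update (st s) a (Function.update (c a) 2 (2 * M)))
          (Function.update (st s) a (Function.update (Function.update (c a) 2 (2 * M)) 0 (X a))) := by
        apply Step.of_update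
        intro j hj
        refine ⟨2, Or.inr ?_⟩
        have h0 : (2 : Fin 3) ≠ 0 := by decide
        simp only [Function.update_of_ne h0, Function.update_self]
        have := hz j; have := hM3 a 2
        constructor <;> linarith
      have s3 : Step μ w
          (Function.update (st s) a (Function.update (Function.update (c a) 2 (2 * M)) 0 (X a)))
          (Function.update (st s) a (Function.update (Function.update (Function.update (c a) 2
            (2 * M)) 0 (X a)) 1 0)) := by
        apply Step.of_update
        intro j hj
        refine ⟨2, Or.inr ?_⟩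
        have h0 : (2 : Fin 3) ≠ 0 := by decide
        have h1 : (2 : Fin 3) ≠ 1 := by decide
        simp only [Function.update_of_ne h0, Function.update_of_ne h1, Function.update_self]
        have := hz j; have := hM3 a 2
        constructor <;> linarith
      have s4 : Step μ w
          (Function.update (st s) a (Function.update (Function.update (Function.update (c a) 2
            (2 * M)) 0 (X a)) 1 0))
          (Function.update (st s) a (Function.update (Function.update (Function.update
            (Function.update (c a) 2 (2 * M)) 0 (X a)) 1 0) 2 0)) := by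
        apply Step.of_update
        intro j hj
        refine ⟨0, ?_⟩
        have h0 : (0 : Fin 3) ≠ 2 := by decide
        have h1 : (0 : Fin 3) ≠ 1 := by decide
        simp only [Function.update_of_ne h0, Function.update_of_ne h1, Function.update_self]
        by_cases hjs : j ∈ s
        · have ej : st s j = c j := by simp [hst, hjs]
          rw [ej]
          right
          have := hM1 j 0; have := hM3 a 0; have := hX a
          constructor <;> linarith
        · have ej : st s j = parkPos X j := by simp [hst, hjs]
          rw [ej]
          simp only [parkPos, Matrix.cons_val_zero]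
          have := hM3 j 0; have := hM3 a 0
          rcases le_abs.1 (hXX a j (Ne.symm hj)) with h | h
          · right; constructor <;> linarith
          · left; constructor <;> linarith
      rw [e0]
      conv_rhs => rw [e4]
      exact ((((Relation.ReflTransGen.single s1).tail s2).tail s3).tail s4)
  have : st Finset.univ = c := by funext i; simp [hst]
  rw [← this]
  exact key _

end Crest.Agent.BoxFlow
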