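import Crest.Agent.Lib_BoxFlow.Plan

/-!
Package B9 of S0170: determinant-one diagonal rescalings of parked boxes through shears, and the
complete plan `Reach a u b v`.
-/

set_option autoImplicit false

namespace Crest.Agent.BoxFlow

open Crest.AnalysisR.BoxFlow

/-- conjugate of a map by the translation to `p` -/
noncomputable def conj (p : Fin 3 → ℚ) (L : E3 → E3) (x : E3) : E3 :=
  fun d => (p d : ℝ) + L (fun e => x e - (p e : ℝ)) d

lemma conj_comp (p : Fin 3 → ℚ) (L L' : E3 → E3) : conj p L ∘ conj p L' = conj p (L ∘ L') := by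
  funext x d
  simp [conj, Function.comp]

/-- the cube of centre `p` and half-width `r` -/
abbrev cube (p : Fin 3 → ℚ) (r : ℚ) : Set E3 := box p (fun _ => r)

/-- maps that can be realized about any centre, moving a cube inside a cube `C` times larger, while
fixing everything outside a slightly bigger cube -/
def Tame (L : E3 → E3) : Prop :=
  ∃ C : ℚ, 1 ≤ C ∧ ∀ p : Fin 3 → ℚ,
    (∀ r : ℚ, 0 < r → Set.MapsTo (conj p L) (cube p r) (cube p (C * r))) ∧
    ∀ (n : ℕ) (Env : Fin n → Set E3) (i : Fin n) (r m : ℚ), 0 < r → 0 < m →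
      (∀ j, j ≠ i → ∀ x ∈ Env j, ∃ d, (m : ℝ) + C * r ≤ |x d - p d|) →
      Realizable (Function.update Env i (cube p r)) (Function.update (fun _ => id) i (conj p L))

lemma Tame.comp (kit : Kit) {L L' : E3 → E3} (h : Tame L) (h' : Tame L') : Tame (L' ∘ L) := by
  obtain ⟨C, hC, H⟩ := h
  obtain ⟨C', hC', H'⟩ := h'
  refine ⟨C' * C, by nlinarith, fun p => ⟨?_, ?_⟩⟩
  · intro r hr
    rw [← conj_comp]
    have := ((H' p).1 (C * r) (by positivity)).comp ((H p).1 r hr)
    rwa [← mul_assoc] at this
  · intro n Env i r m hr hm hE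
    have hrR : (0 : ℝ) < r := by exact_mod_cast hr
    have hCR : (1 : ℝ) ≤ C := by exact_mod_cast hC
    have hCR' : (1 : ℝ) ≤ C' := by exact_mod_cast hC'
    have h1 := (H p).2 n Env i r m hr hm (fun j hj x hx => by
      obtain ⟨d, hd⟩ := hE j hj x hx
      refine ⟨d, le_trans ?_ hd⟩
      push_cast
      have : (C : ℝ) * r ≤ C' * C * r := by
        have : (0 : ℝ) ≤ C * r := by positivity
        nlinarith
      linarith)
    have h2 := (H' p).2 n Env i (C * r) m (by positivity) hm (fun j hj x hx => by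
      obtain ⟨d, hd⟩ := hE j hj x hx
      refine ⟨d, le_trans (le_of_eq ?_) hd⟩
      push_cast
      ring)
    have h3 := kit.trans h1 h2 (fun j => by
      by_cases hj : j = i
      · subst hj
        simpa using (H p).1 r hr
      · simpa [Function.update_of_ne hj] using Set.mapsTo_id _)
    convert h3 using 1
    funext j
    by_cases hj : j = i
    · subst hj
      simp [conj_comp]
    · simp [Function.update_of_ne hj]

/-- the linear shear `x ↦ x + α x_j e_a` -/
noncomputable def shear (a j : Fin 3) (α : ℚ) (x : E3) : E3 := x + Pi.single a ((α : ℝ) * x j)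

lemma conj_shear (p : Fin 3 → ℚ) (a j : Fin 3) (α : ℚ) :
    conj p (shear a j α) = elemMap a j α (-(α * p j)) 1 := by
  funext x d
  by_cases hd : d = a
  · subst hd
    simp [conj, shear, elemMap]
    ring
  · simp [conj, shear, elemMap, hd]

lemma elemMap_bound (p : Fin 3 → ℚ) (a j : Fin 3) (α r : ℚ) (x : E3) (hx : x ∈ cube p r)
    (θ : ℝ) (hθ : θ ∈ Set.Icc (0 : ℝ) 1) (d : Fin 3) :
    |elemMap a j α (-(α * p j)) θ x d - p d| ≤ (1 + |(α : ℝ)|) * r := by
  have hxd := hx d
  have hxj := hx j
  have hr : (0 : ℝ) ≤ r := le_trans (abs_nonneg _) hxd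
  by_cases hd : d = a
  · subst hd
    simp only [elemMap, Pi.add_apply, Pi.single_eq_same]
    push_cast
    have e : x d + θ * (α * x j + -(α * p j)) - p d = (x d - p d) + θ * (α * (x j - p j)) := by ring
    rw [e]
    have h1 : |θ * ((α : ℝ) * (x j - p j))| ≤ |(α : ℝ)| * r := by
      rw [abs_mul, abs_mul, abs_of_nonneg hθ.1]
      have h2 : |(α : ℝ)| * |x j - p j| ≤ |(α : ℝ)| * r :=
        mul_le_mul_of_nonneg_left hxj (abs_nonneg _)
      have h3 : 0 ≤ |(α : ℝ)| * |x j - p j| := by positivity
      have := hθ.2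
      nlinarith
    calc |(x d - p d) + θ * (α * (x j - p j))| ≤ |x d - p d| + |θ * ((α : ℝ) * (x j - p j))| :=
          abs_add_le _ _
      _ ≤ r + |(α : ℝ)| * r := add_le_add hxd h1
      _ = (1 + |(α : ℝ)|) * r := by ring
  · simp only [elemMap, Pi.add_apply, Pi.single_eq_of_ne hd, add_zero]
    have : (0 : ℝ) ≤ |(α : ℝ)| * r := by positivity
    calc |x d - p d| ≤ r := hxd
      _ ≤ (1 + |(α : ℝ)|) * r := by linarith

lemma tame_shear (kit : Kit) (a j : Fin 3) (haj : a ≠ j) (α : ℚ) : Tame (shear a j α) := by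
  refine ⟨1 + |α|, by have := abs_nonneg α; linarith, fun p => ⟨?_, ?_⟩⟩
  · intro r hr x hx d
    rw [conj_shear]
    have := elemMap_bound p a j α r x hx 1 ⟨zero_le_one, le_rfl⟩ d
    push_cast
    exact this
  · intro n Env i r m hr hm hE
    have hpos : 0 < (1 + |α|) * r := by have := abs_nonneg α; positivity
    refine kit.elem (Fin n) _ _ a j α (-(α * p j)) (fun d => p d - (1 + |α|) * r)
      (fun d => p d + (1 + |α|) * r) m haj hm (fun d => by linarith) ?_
    intro k
    by_cases hk : k = i
    · subst hk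
      left
      refine ⟨by simp [conj_shear], ?_⟩
      intro x hx θ hθ d
      rw [Function.update_self] at hx
      have := abs_le.1 (elemMap_bound p a j α r x hx θ hθ d)
      push_cast
      constructor <;> linarith [this.1, this.2]
    · right
      refine ⟨by simp [Function.update_of_ne hk], ?_⟩
      intro x hx
      rw [Function.update_of_ne hk] at hx
      obtain ⟨d, hd⟩ := hE k hk x hx
      refine ⟨d, ?_⟩
      push_cast at hd ⊢
      rcases le_abs.1 hd with h | h
      · right; linarith
      · left; linarith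

/-- diagonal maps -/
noncomputable def diag (l : Fin 3 → ℚ) (x : E3) : E3 := fun d => (l d : ℝ) * x d

lemma conj_diag (p u v : Fin 3 → ℚ) : conj p (diag fun d => v d / u d) = aff p u p v := rfl

lemma diag2_eq (a j : Fin 3) (haj : a ≠ j) (l : ℚ) (hl : l ≠ 0) :
    diag (Function.update (Function.update 1 a l) j (1 / l)) =
      shear j a (1 / l - 1) ∘ shear a j 1 ∘ shear j a (l - 1) ∘ shear a j (-1 / l) := by
  have hl' : (l : ℝ) ≠ 0 := by exact_mod_cast hl
  funext x d
  by_cases hda : d = a
  · subst hda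
    simp [diag, shear, haj, Function.comp]
    field_simp
    ring
  · by_cases hdj : d = j
    · subst hdj
      simp [diag, shear, haj, Function.comp, hda, Ne.symm hda]
      field_simp
      ring
    · simp [diag, shear, Function.comp, hda, hdj]

lemma tame_diag2 (kit : Kit) (a j : Fin 3) (haj : a ≠ j) (l : ℚ) (hl : l ≠ 0) :
    Tame (diag (Function.update (Function.update 1 a l) j (1 / l))) := by
  rw [diag2_eq a j haj l hl]
  exact (((tame_shear kit a j haj _).comp kit (tame_shear kit j a haj.symm _)).comp kit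
    (tame_shear kit a j haj _)).comp kit (tame_shear kit j a haj.symm _)

lemma tame_diag (kit : Kit) (l : Fin 3 → ℚ) (hl : ∀ d, l d ≠ 0) (hprod : ∏ d, l d = 1) :
    Tame (diag l) := by
  have e : diag l = diag (Function.update (Function.update 1 0 (l 0)) 1 (1 / l 0)) ∘
      diag (Function.update (Function.update 1 1 (l 0 * l 1)) 2 (1 / (l 0 * l 1))) := by
    have h0 : (l 0 : ℝ) ≠ 0 := by exact_mod_cast hl 0
    have h1 : (l 1 : ℝ) ≠ 0 := by exact_mod_cast hl 1
    have hp : (l 0 : ℝ) * l 1 * l 2 = 1 := by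
      rw [Fin.prod_univ_three] at hprod
      exact_mod_cast hprod
    funext x d
    fin_cases d
    · simp [diag, Function.comp]
    · simp [diag, Function.comp]
      field_simp
    · simp [diag, Function.comp]
      left
      field_simp
      linarith
  rw [e]
  exact (tame_diag2 kit 1 2 (by decide) _ (mul_ne_zero (hl 0) (hl 1))).comp kit
    (tame_diag2 kit 0 1 (by decide) _ (hl 0))

lemma reshape (kit : Kit) {n : ℕ} (u v : Fin n → Fin 3 → ℚ) (hu : ∀ i d, 0 < u i d)
    (hv : ∀ i d, 0 < v i d) (hvol : ∀ i, ∏ d, v i d / u i d = 1) :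
    ∃ C0 : ℚ, 0 ≤ C0 ∧ ∀ (X : Fin n → ℚ) (M μ : ℚ), (∀ i d, u i d ≤ M) → (∀ i d, v i d ≤ M) →
      0 < μ → (∀ i j, i ≠ j → μ + (C0 + 1) * M ≤ |X i - X j|) →
      Reach (parkPos X) u (parkPos X) v := by
  classical
  have hT : ∀ i, Tame (diag fun d => v i d / u i d) := fun i =>
    tame_diag kit _ (fun d => (div_pos (hv i d) (hu i d)).ne') (hvol i)
  choose C hC1 hC2 using hT
  have hC0 : ∀ i, 0 ≤ C i := fun i => le_trans zero_le_one (hC1 i)
  refine ⟨∑ i, C i, Finset.sum_nonneg (fun i _ => hC0 i), ?_⟩
  intro X M μ huM hvM hμ hXX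
  set wS : Finset (Fin n) → Fin n → Fin 3 → ℚ := fun S i => if i ∈ S then v i else u i with hwS
  have hwpos : ∀ S i d, 0 < wS S i d := by
    intro S i d
    by_cases h : i ∈ S
    · simpa [hwS, h] using hv i d
    · simpa [hwS, h] using hu i d
  have hwM : ∀ S i d, wS S i d ≤ M := by
    intro S i d
    by_cases h : i ∈ S
    · simpa [hwS, h] using hvM i d
    · simpa [hwS, h] using huM i d
  have key : ∀ S : Finset (Fin n), Reach (parkPos X) u (parkPos X) (wS S) := by
    intro S
    induction S using Finset.induction_on with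
    | empty =>
      have : wS ∅ = u := by funext i; simp [hwS]
      rw [this]
      exact Reach.refl kit _ _ hu
    | insert i S hi ih =>
      refine Reach.trans kit hu (hwpos S) ih ?_
      have hM : 0 < M := lt_of_lt_of_le (hu i 0) (huM i 0)
      have h1 := (hC2 i (parkPos X i)).2 n (fun j => box (parkPos X j) (wS S j)) i M μ hM hμ (by
        intro j hj x hx
        refine ⟨0, ?_⟩
        have h2 : |x 0 - (X j : ℝ)| ≤ (wS S j 0 : ℝ) := by simpa [parkPos] using hx 0
        have h3 : (wS S j 0 : ℝ) ≤ M := by exact_mod_cast hwM S j 0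
        have h4 : ((μ + ((∑ i, C i) + 1) * M : ℚ) : ℝ) ≤ ((|X j - X i| : ℚ) : ℝ) := by
          exact_mod_cast hXX j i hj
        have h5 : C i ≤ ∑ i, C i := Finset.single_le_sum (fun i _ => hC0 i) (Finset.mem_univ i)
        have h6 : (C i : ℝ) * M ≤ ((∑ i, C i : ℚ) : ℝ) * M := by
          have : C i * M ≤ (∑ i, C i) * M := mul_le_mul_of_nonneg_right h5 hM.le
          exact_mod_cast this
        have h7 : |(X j : ℝ) - X i| ≤ |x 0 - (X i : ℝ)| + |x 0 - (X j : ℝ)| := by
          have : (X j : ℝ) - X i = (x 0 - X i) - (x 0 - X j) := by ring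
          rw [this]
          exact abs_sub _ _
        have e0 : ((parkPos X i 0 : ℚ) : ℝ) = X i := by simp [parkPos]
        rw [e0]
        simp only [Rat.cast_add, Rat.cast_mul, Rat.cast_one, Rat.cast_abs, Rat.cast_sub] at h4
        nlinarith)
      have h2 := kit.mono (K' := fun j => box (parkPos X j) (wS S j)) (by
        intro j
        by_cases hj : j = i
        · subst hj
          rw [Function.update_self]
          intro x hx d
          have h3 : (wS S j d : ℝ) ≤ M := by exact_mod_cast hwM S j d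
          exact le_trans (hx d) h3
        · rw [Function.update_of_ne hj]) h1
      unfold Reach
      convert h2 using 1
      funext j
      by_cases hj : j = i
      · subst hj
        rw [Function.update_self, conj_diag]
        simp [hwS, hi]
      · rw [Function.update_of_ne hj]
        have : wS (insert i S) j = wS S j := by simp [hwS, hj]
        rw [this]
        exact aff_self _ _ (fun d => (hwpos S j d).ne')
  have : wS Finset.univ = v := by funext i; simp [hwS]
  rw [← this]
  exact key _

/-- The complete plan: two `μ`-separated configurations of boxes with equal volumes are connected. -/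
theorem plan (kit : Kit) {n : ℕ} (a b u v : Fin n → Fin 3 → ℚ) (μ : ℚ) (hμ : 0 < μ)
    (hu : ∀ i d, 0 < u i d) (hv : ∀ i d, 0 < v i d)
    (hsa : ∀ i j, i ≠ j → ∃ d, u i d + u j d + μ ≤ |a i d - a j d|)
    (hsb : ∀ i j, i ≠ j → ∃ d, v i d + v j d + μ ≤ |b i d - b j d|)
    (hvol : ∀ i, ∏ d, v i d / u i d = 1) : Reach a u b v := by
  obtain ⟨C0, hC0, H⟩ := reshape kit u v hu hv hvol
  set f : Fin n → Fin 3 → ℚ := fun i d => (|a i d| + u i d + μ) + (|b i d| + v i d + μ) with hf
  have hf0 : ∀ i d, 0 ≤ f i d := by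
    intro i d
    have := hu i d; have := hv i d; have := abs_nonneg (a i d); have := abs_nonneg (b i d)
    simp only [hf]; linarith
  set M0 : ℚ := μ + ∑ i, ∑ d, f i d with hM0
  have hfM : ∀ i d, f i d ≤ M0 := by
    intro i d
    have h1 : f i d ≤ ∑ d, f i d := Finset.single_le_sum (fun d _ => hf0 i d) (Finset.mem_univ d)
    have h2 : ∑ d, f i d ≤ ∑ i, ∑ d, f i d :=
      Finset.single_le_sum (f := fun i => ∑ d, f i d)
        (fun i _ => Finset.sum_nonneg (fun d _ => hf0 i d)) (Finset.mem_univ i)
    linarith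
  have hM0μ : μ ≤ M0 := by
    have : 0 ≤ ∑ i, ∑ d, f i d := Finset.sum_nonneg (fun i _ => Finset.sum_nonneg (fun d _ => hf0 i d))
    linarith
  have hM0pos : 0 < M0 := lt_of_lt_of_le hμ hM0μ
  set M : ℚ := (C0 + 2) * M0 with hM
  have hMM0 : M0 ≤ M := by nlinarith
  set X : Fin n → ℚ := fun i => ((i : ℕ) + 1 : ℚ) * (2 * M) with hX
  have hMpos : 0 < M := lt_of_lt_of_le hM0pos hMM0
  have hX1 : ∀ i, 2 * M ≤ X i := by
    intro i
    have : (0 : ℚ) ≤ ((i : ℕ) : ℚ) := Nat.cast_nonneg _
    simp only [hX]; nlinarith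
  have hX2 : ∀ i j, i ≠ j → 2 * M ≤ |X i - X j| := by
    intro i j hij
    have hne : (i : ℕ) ≠ (j : ℕ) := fun h => hij (Fin.ext h)
    have e : X i - X j = (((i : ℕ) : ℚ) - ((j : ℕ) : ℚ)) * (2 * M) := by simp only [hX]; ring
    rw [e, abs_mul, abs_of_pos (by linarith : (0 : ℚ) < 2 * M)]
    have h1 : (1 : ℚ) ≤ |((i : ℕ) : ℚ) - ((j : ℕ) : ℚ)| := by
      rcases lt_or_gt_of_ne hne with h | h
      · have : ((i : ℕ) : ℚ) + 1 ≤ ((j : ℕ) : ℚ) := by exact_mod_cast h
        rw [abs_sub_comm]
        exact le_trans (by linarith) (le_abs_self _)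
      · have : ((j : ℕ) : ℚ) + 1 ≤ ((i : ℕ) : ℚ) := by exact_mod_cast h
        exact le_trans (by linarith) (le_abs_self _)
    nlinarith
  have r1 : Reach a u (parkPos X) u := reach_of_steps kit hμ hu
    (park (M := M) hμ hu hsa (fun i d => by
      have h0 := hfM i d; have := hv i d; have := abs_nonneg (b i d)
      simp only [hf] at h0; linarith) hX1 hX2)
  have r3 : Reach (parkPos X) v b v := reach_of_steps kit hμ hv
    (steps_symm (park (M := M) hμ hv hsb (fun i d => by
      have h0 := hfM i d; have := hu i d; have := abs_nonneg (a i d)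
      simp only [hf] at h0; linarith) hX1 hX2))
  have r2 : Reach (parkPos X) u (parkPos X) v := H X M0 μ
    (fun i d => by
      have h0 := hfM i d; have := hv i d; have := abs_nonneg (b i d); have := abs_nonneg (a i d)
      simp only [hf] at h0; linarith)
    (fun i d => by
      have h0 := hfM i d; have := hu i d; have := abs_nonneg (b i d); have := abs_nonneg (a i d)
      simp only [hf] at h0; linarith) hμ
    (fun i j hij => by
      have := hX2 i j hij
      nlinarith)
  exact Reach.trans kit hu hv (Reach.trans kit hu hu r1 r2) r3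

end Crest.Agent.BoxFlow
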